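import Vale.Agent.P363.H382.Conv
import Vale.Agent.P363.R.Top.Defs

/-! `L¹` continuity of the density in the state. -/

namespace Vale.Agent.P363.H943

open MeasureTheory Filter Topology
open Vale.Agent.P363.Stmt
open Vale.Agent.P363.H382
open Vale.Agent.P363.R.Top
open scoped ContDiff ENNReal ComplexConjugate

noncomputable section

/-- slices of an integrable function on `Conf (n+1)`. -/
theorem integrable_slice {n : ℕ} {f : Conf (n + 1) → ℝ} (hf : Integrable f) :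
    Integrable (fun r : R3 => ∫ y : Conf n, f (Fin.cons r y)) ∧
      ∫ r : R3, ∫ y : Conf n, f (Fin.cons r y) = ∫ x, f x := by
  have h1 : Integrable (fun p : R3 × Conf n => f (consE p)) (volume.prod volume) :=
    consE_mp.integrable_comp_of_integrable hf
  refine ⟨h1.integral_prod_left, ?_⟩
  rw [← integral_comp_equiv consE (consE_mp (n := n)) f]
  exact (integral_prod _ h1).symm

theorem ae_integrable_slice {n : ℕ} {f : Conf (n + 1) → ℝ} (hf : Integrable f) :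
    ∀ᵐ r : R3, Integrable (fun y : Conf n => f (Fin.cons r y)) := by
  have h1 : Integrable (fun p : R3 × Conf n => f (consE p)) (volume.prod volume) :=
    consE_mp.integrable_comp_of_integrable hf
  exact h1.prod_right_ae

theorem amp_sq_integrable {N : ℕ} (Ψ : ElectronState N) (s : Fin N → Fin 2) :
    Integrable (fun x => ‖Ψ.amp s x‖ ^ 2) := (Ψ.amp_memLp s).integrable_norm_pow (by norm_num)

theorem amp_sub_sq_integrable {N : ℕ} (Ψ Ψ0 : ElectronState N) (s : Fin N → Fin 2) :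
    Integrable (fun x => ‖Ψ.amp s x - Ψ0.amp s x‖ ^ 2) :=
  (MemLp.sub (Ψ.amp_memLp s) (Ψ0.amp_memLp s)).integrable_norm_pow (by norm_num)

/-- the density is integrable. -/
theorem density_integrable {n : ℕ} (Ψ : ElectronState (n + 1)) : Integrable (density Ψ) := by
  have : density Ψ = fun r => ((n : ℝ) + 1) * ∑ s, ∫ y : Conf n, ‖Ψ.amp s (Fin.cons r y)‖ ^ 2 := rfl
  rw [this]
  refine Integrable.const_mul (integrable_finsetSum _ fun s _ => ?_) _
  exact (integrable_slice (amp_sq_integrable Ψ s)).1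

theorem integral_density {n : ℕ} (Ψ : ElectronState (n + 1)) :
    ∫ x, density Ψ x = ((n : ℝ) + 1) * normSq Ψ := by
  have : density Ψ = fun r => ((n : ℝ) + 1) * ∑ s, ∫ y : Conf n, ‖Ψ.amp s (Fin.cons r y)‖ ^ 2 := rfl
  rw [this, integral_const_mul, integral_finsetSum]
  · congr 1
    refine Finset.sum_congr rfl fun s _ => ?_
    exact (integrable_slice (amp_sq_integrable Ψ s)).2
  · intro s _
    exact (integrable_slice (amp_sq_integrable Ψ s)).1

/-- pointwise Cauchy-Schwarz: `| |a|² - |b|² | ≤ (t/2)|a-b|² + (1/(2t)) (|a|+|b|)²`. -/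
theorem abs_sq_sub_sq_le (a b : ℂ) : |‖a‖ ^ 2 - ‖b‖ ^ 2| ≤ ‖a - b‖ * (‖a‖ + ‖b‖) := by
  have h1 : ‖a‖ ^ 2 - ‖b‖ ^ 2 = (‖a‖ - ‖b‖) * (‖a‖ + ‖b‖) := by ring
  rw [h1, abs_mul, abs_of_nonneg (by positivity : (0:ℝ) ≤ ‖a‖ + ‖b‖)]
  exact mul_le_mul_of_nonneg_right (abs_norm_sub_norm_le a b) (by positivity)

/-- `∫ | |Ψ|² - |Ψ₀|² | ≤ 2 √dist` summed over the spins. -/
theorem sum_integral_abs_le {N : ℕ} (Ψ Ψ0 : ElectronState N) (h : normSq Ψ = 1)
    (h0 : normSq Ψ0 = 1) :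
    ∑ s, ∫ x, |‖Ψ.amp s x‖ ^ 2 - ‖Ψ0.amp s x‖ ^ 2| ≤ 2 * Real.sqrt (distSq Ψ Ψ0) := by
  have hd0 : 0 ≤ distSq Ψ Ψ0 :=
    Finset.sum_nonneg fun s _ => integral_nonneg fun x => by positivity
  -- for every `t > 0`
  have key : ∀ t : ℝ, 0 < t → ∑ s, ∫ x, |‖Ψ.amp s x‖ ^ 2 - ‖Ψ0.amp s x‖ ^ 2| ≤
      t * 2 + t⁻¹ / 2 * distSq Ψ Ψ0 := by
    intro t ht
    have hn : ∀ Φ : ElectronState N, normSq Φ = ∑ s, ∫ x, ‖Φ.amp s x‖ ^ 2 := fun _ => rfl
    have e : t * 2 + t⁻¹ / 2 * distSq Ψ Ψ0 =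
        ∑ s, ∫ x, (t * (‖Ψ.amp s x‖ ^ 2 + ‖Ψ0.amp s x‖ ^ 2) +
          t⁻¹ / 2 * ‖Ψ.amp s x - Ψ0.amp s x‖ ^ 2) := by
      have : ∀ s, ∫ x, (t * (‖Ψ.amp s x‖ ^ 2 + ‖Ψ0.amp s x‖ ^ 2) +
          t⁻¹ / 2 * ‖Ψ.amp s x - Ψ0.amp s x‖ ^ 2) =
          t * ((∫ x, ‖Ψ.amp s x‖ ^ 2) + ∫ x, ‖Ψ0.amp s x‖ ^ 2) +
            t⁻¹ / 2 * ∫ x, ‖Ψ.amp s x - Ψ0.amp s x‖ ^ 2 := by
        intro s
        rw [integral_add, integral_const_mul, integral_const_mul, integral_add]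
        · exact amp_sq_integrable Ψ s
        · exact amp_sq_integrable Ψ0 s
        · exact ((amp_sq_integrable Ψ s).add (amp_sq_integrable Ψ0 s)).const_mul _
        · exact (amp_sub_sq_integrable Ψ Ψ0 s).const_mul _
      simp only [this, Finset.sum_add_distrib, ← Finset.mul_sum]
      rw [← hn Ψ, ← hn Ψ0, h, h0]
      unfold distSq
      ring
    rw [e]
    refine Finset.sum_le_sum fun s _ => ?_
    refine integral_mono_of_nonneg (Eventually.of_forall fun x => by positivity) ?_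
      (Eventually.of_forall fun x => ?_)
    · exact (((amp_sq_integrable Ψ s).add (amp_sq_integrable Ψ0 s)).const_mul _).add
        ((amp_sub_sq_integrable Ψ Ψ0 s).const_mul _)
    · simp only
      refine (abs_sq_sub_sq_le _ _).trans ?_
      set a := ‖Ψ.amp s x‖
      set b := ‖Ψ0.amp s x‖
      set c := ‖Ψ.amp s x - Ψ0.amp s x‖
      have h1 : c * (a + b) ≤ t / 2 * (a + b) ^ 2 + t⁻¹ / 2 * c ^ 2 := by
        have : 0 ≤ (t * (a + b) - c) ^ 2 / (2 * t) := by positivity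
        have e2 : (t * (a + b) - c) ^ 2 / (2 * t) =
            t / 2 * (a + b) ^ 2 + t⁻¹ / 2 * c ^ 2 - c * (a + b) := by
          field_simp
          ring
        linarith
      have h2 : (a + b) ^ 2 ≤ 2 * (a ^ 2 + b ^ 2) := by nlinarith [sq_nonneg (a - b)]
      have h3 : t / 2 * (a + b) ^ 2 ≤ t * (a ^ 2 + b ^ 2) := by
        nlinarith
      linarith
  rcases hd0.eq_or_lt with hd | hd
  · -- distance zero
    rw [← hd, Real.sqrt_zero, mul_zero]
    refine le_of_forall_pos_le_add fun ε hε => ?_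
    have := key (ε / 2) (by positivity)
    rw [← hd] at this
    linarith
  · have hs : 0 < Real.sqrt (distSq Ψ Ψ0) := Real.sqrt_pos.2 hd
    have := key (Real.sqrt (distSq Ψ Ψ0) / 2) (by positivity)
    have e : (Real.sqrt (distSq Ψ Ψ0) / 2)⁻¹ / 2 * distSq Ψ Ψ0 = Real.sqrt (distSq Ψ Ψ0) := by
      nth_rewrite 2 [← Real.sq_sqrt hd0]
      field_simp
    rw [e] at this
    linarith

/-- `L¹` continuity of the density. -/
theorem dens_close (Ψ Ψ0 : ElectronState 5) (h : normSq Ψ = 1) (h0 : normSq Ψ0 = 1) :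
    Integrable (fun x => density Ψ x - density Ψ0 x) ∧
      ∫ x, |density Ψ x - density Ψ0 x| ≤ 10 * Real.sqrt (distSq Ψ Ψ0) := by
  have hI : Integrable (fun x => density Ψ x - density Ψ0 x) :=
    (density_integrable Ψ).sub (density_integrable Ψ0)
  refine ⟨hI, ?_⟩
  have hi : ∀ s, Integrable (fun x => |‖Ψ.amp s x‖ ^ 2 - ‖Ψ0.amp s x‖ ^ 2|) := fun s =>
    ((amp_sq_integrable Ψ s).sub (amp_sq_integrable Ψ0 s)).abs
  have hb : ∀ᵐ r : R3, |density Ψ r - density Ψ0 r| ≤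
      5 * ∑ s, ∫ y : Conf 4, |‖Ψ.amp s (Fin.cons r y)‖ ^ 2 - ‖Ψ0.amp s (Fin.cons r y)‖ ^ 2| := by
    have h1 : ∀ᵐ r : R3, ∀ s, Integrable (fun y : Conf 4 => ‖Ψ.amp s (Fin.cons r y)‖ ^ 2) :=
      ae_all_iff.2 fun s => ae_integrable_slice (amp_sq_integrable Ψ s)
    have h2 : ∀ᵐ r : R3, ∀ s, Integrable (fun y : Conf 4 => ‖Ψ0.amp s (Fin.cons r y)‖ ^ 2) :=
      ae_all_iff.2 fun s => ae_integrable_slice (amp_sq_integrable Ψ0 s)
    filter_upwards [h1, h2] with r a1 a2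
    have e : density Ψ r - density Ψ0 r = 5 * ∑ s, ∫ y : Conf 4,
        (‖Ψ.amp s (Fin.cons r y)‖ ^ 2 - ‖Ψ0.amp s (Fin.cons r y)‖ ^ 2) := by
      have e1 : ∀ Φ : ElectronState 5, density Φ r =
        5 * ∑ s, ∫ y : Conf 4, ‖Φ.amp s (Fin.cons r y)‖ ^ 2 := by
        intro Φ
        unfold density
        norm_num
        rfl
      rw [e1, e1, ← mul_sub, ← Finset.sum_sub_distrib]
      congr 1
      refine Finset.sum_congr rfl fun s _ => ?_
      rw [integral_sub (a1 s) (a2 s)]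
    rw [e, abs_mul, abs_of_nonneg (by norm_num : (0:ℝ) ≤ 5)]
    refine mul_le_mul_of_nonneg_left ?_ (by norm_num)
    refine (Finset.abs_sum_le_sum_abs _ _).trans (Finset.sum_le_sum fun s _ => ?_)
    exact abs_integral_le_integral_abs
  have hI2 : Integrable (fun r : R3 => 5 * ∑ s, ∫ y : Conf 4,
      |‖Ψ.amp s (Fin.cons r y)‖ ^ 2 - ‖Ψ0.amp s (Fin.cons r y)‖ ^ 2|) :=
    (integrable_finsetSum _ fun s _ => (integrable_slice (hi s)).1).const_mul _
  refine (integral_mono_ae hI.abs hI2 hb).trans ?_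
  rw [integral_const_mul, integral_finsetSum _ fun s _ => (integrable_slice (hi s)).1]
  have : ∑ s, ∫ r : R3, ∫ y : Conf 4,
      |‖Ψ.amp s (Fin.cons r y)‖ ^ 2 - ‖Ψ0.amp s (Fin.cons r y)‖ ^ 2| =
      ∑ s, ∫ x, |‖Ψ.amp s x‖ ^ 2 - ‖Ψ0.amp s x‖ ^ 2| :=
    Finset.sum_congr rfl fun s _ => (integrable_slice (hi s)).2
  rw [this]
  linarith [sum_integral_abs_le Ψ Ψ0 h h0]

end

end Vale.Agent.P363.H943
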