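import Vale.Agent.P363.H943.DysonEq

/-! `B5.dyson_eq`, `B5.rem_bound` (from the multipole bound) and `B5.dyson_le`. -/

namespace Vale.Agent.P363.H943

open MeasureTheory Filter Topology
open Vale.Agent.P363.Stmt
open Vale.Agent.P363.H382
open Vale.Agent.P363.R.Sob
open Vale.Agent.P363.R.Top
open Vale.Agent.P363.B5
open scoped ContDiff ENNReal ComplexConjugate

noncomputable section

theorem mult_eq (x : R3) (y : Conf 4) : mult x y = multN x y := by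
  unfold mult multN
  norm_num

theorem rem_eq (Φ : ElectronState 4) (Ψ : ElectronState 5) :
    rem Φ Ψ = remN (fam Φ) (fam Ψ) 0 := by
  funext x
  unfold rem remN contr
  refine Finset.sum_congr rfl fun s _ => ?_
  refine integral_congr_ae (Eventually.of_forall fun y => ?_)
  simp only [fam_amp, Fin.cons_zero, tl_cons, mult_eq]
  ring

theorem memLp_rem (Φ : ElectronState 4) (Ψ : ElectronState 5) : MemLp (rem Φ Ψ) 2 volume := by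
  rw [rem_eq]
  exact memLp_remN _ _ _

/-- B5.4: the equation of the Dyson amplitude. -/
theorem dyson_eq' {lam : ℝ} {Φ : ElectronState 4} {Ψ : ElectronState 5}
    (hΦ : IsGroundState (pot lam) Φ) (hΨ : IsGroundState (pot lam) Ψ)
    (ζ : R3 → ℝ) (hζ : Test ζ) :
    -(1 / 2 : ℂ) * (∫ x, (lapT ζ x : ℂ) * dyson Φ Ψ 0 x) +
      ∫ x, (((energy (pot lam) Φ - energy (pot lam) Ψ - (1 - 4 * lam) / ‖x‖ : ℝ)) : ℂ) *
        ((ζ x : ℂ) * dyson Φ Ψ 0 x) =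
      -(lam : ℂ) * ∫ x, (ζ x : ℂ) * rem Φ Ψ x := by
  have h := dyson_test hΦ hΨ 0 hζ
  rw [rem_eq]
  have e : ((4 : ℕ) : ℝ) = 4 := by norm_num
  rw [e] at h
  exact h

/-- B5.4, as in `B5.Spec`. -/
theorem dyson_eq {κ lam ε : ℝ} (_hl : 0 < lam) {Φ : ElectronState 4} {Ψ : ElectronState 5}
    (P : AtomPair κ lam ε Φ Ψ) (ζ : R3 → ℝ) (hζ : Test ζ) (_h0 : (0 : R3) ∉ tsupport ζ) :
    -(1 / 2 : ℂ) * (∫ x, (lapT ζ x : ℂ) * dyson Φ Ψ 0 x) +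
      ∫ x, (((energy (pot lam) Φ - energy (pot lam) Ψ - (1 - 4 * lam) / ‖x‖ : ℝ)) : ℂ) *
        ((ζ x : ℂ) * dyson Φ Ψ 0 x) =
      -(lam : ℂ) * ∫ x, (ζ x : ℂ) * rem Φ Ψ x :=
  dyson_eq' P.gsΦ P.gsΨ ζ hζ

/-! ### Cauchy-Schwarz -/

/-- Cauchy-Schwarz for finite sums of integrals. -/
theorem norm_sum_integral_sq_le {ι X : Type*} [MeasurableSpace X] {μ : Measure X} (S : Finset ι)
    {f g : ι → X → ℂ} (hf : ∀ s ∈ S, MemLp (f s) 2 μ) (hg : ∀ s ∈ S, MemLp (g s) 2 μ) :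
    ‖∑ s ∈ S, ∫ x, conj (f s x) * g s x ∂μ‖ ^ 2 ≤
      (∑ s ∈ S, ∫ x, ‖f s x‖ ^ 2 ∂μ) * ∑ s ∈ S, ∫ x, ‖g s x‖ ^ 2 ∂μ := by
  have one : ∀ s ∈ S, ‖∫ x, conj (f s x) * g s x ∂μ‖ ≤
      Real.sqrt (∫ x, ‖f s x‖ ^ 2 ∂μ) * Real.sqrt (∫ x, ‖g s x‖ ^ 2 ∂μ) := by
    intro s hs
    have h1 : ‖∫ x, conj (f s x) * g s x ∂μ‖ ≤ ∫ x, ‖f s x‖ * ‖g s x‖ ∂μ := by
      refine (norm_integral_le_integral_norm _).trans (le_of_eq ?_)
      refine integral_congr_ae (Eventually.of_forall fun x => ?_)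
      simp only [norm_mul, RCLike.norm_conj]
    refine h1.trans ?_
    have h2 := integral_mul_le_Lp_mul_Lq_of_nonneg (μ := μ) (p := 2) (q := 2)
      (f := fun x => ‖f s x‖) (g := fun x => ‖g s x‖) Real.HolderConjugate.two_two
      (Eventually.of_forall fun x => norm_nonneg _) (Eventually.of_forall fun x => norm_nonneg _)
      (by simpa using (hf s hs).norm) (by simpa using (hg s hs).norm)
    simpa only [Real.rpow_two, Real.sqrt_eq_rpow] using h2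
  calc ‖∑ s ∈ S, ∫ x, conj (f s x) * g s x ∂μ‖ ^ 2
      ≤ (∑ s ∈ S, Real.sqrt (∫ x, ‖f s x‖ ^ 2 ∂μ) * Real.sqrt (∫ x, ‖g s x‖ ^ 2 ∂μ)) ^ 2 := by
        gcongr
        exact (norm_sum_le _ _).trans (Finset.sum_le_sum one)
    _ ≤ (∑ s ∈ S, Real.sqrt (∫ x, ‖f s x‖ ^ 2 ∂μ) ^ 2) *
        ∑ s ∈ S, Real.sqrt (∫ x, ‖g s x‖ ^ 2 ∂μ) ^ 2 := Finset.sum_mul_sq_le_sq_mul_sq _ _ _
    _ = _ := by
        congr 1
        · exact Finset.sum_congr rfl fun s _ => Real.sq_sqrt (integral_nonneg fun x => by positivity)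
        · exact Finset.sum_congr rfl fun s _ => Real.sq_sqrt (integral_nonneg fun x => by positivity)

/-- the spin-up part of the density. -/
theorem up_le_density {n : ℕ} (Ψ : ElectronState (n + 1)) (σ : Fin 2) (x : R3) :
    ((n : ℝ) + 1) * ∑ s : Spn n, ∫ y : Conf n, ‖Ψ.amp (Fin.cons σ s) (Fin.cons x y)‖ ^ 2 ≤
      density Ψ x := by
  unfold density
  simp only [intR_eq]
  rw [R801.sum_spin]
  have h0 : ∀ a : Fin 2, 0 ≤ ∑ s : Spn n, ∫ y : Conf n,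
      ‖Ψ.amp (Fin.cons a s) (Fin.cons x y)‖ ^ 2 := fun a =>
    Finset.sum_nonneg fun s _ => integral_nonneg fun y => by positivity
  have h1 := Finset.single_le_sum (f := fun a : Fin 2 => ∑ s : Spn n, ∫ y : Conf n,
      ‖Ψ.amp (Fin.cons a s) (Fin.cons x y)‖ ^ 2) (fun a _ => h0 a) (Finset.mem_univ σ)
  have h2 : (0 : ℝ) ≤ (n : ℝ) + 1 := by positivity
  exact mul_le_mul_of_nonneg_left h1 h2

/-- slices of the amplitudes are in `L²`. -/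
theorem ae_slices {n : ℕ} (Ψ : ElectronState (n + 1)) : ∀ᵐ x : R3, ∀ s : Spn (n + 1),
    MemLp (fun y : Conf n => Ψ.amp s (Fin.cons x y)) 2 volume := by
  rw [ae_all_iff]
  exact fun s => ae_memLp_rest (Ψ.amp_memLp s)

/-- `(n+1) |dyson|² ≤ ‖Φ‖² density`. -/
theorem dyson_le_gen {n : ℕ} (Φ : ElectronState n) (Ψ : ElectronState (n + 1)) (σ : Fin 2) :
    ∀ᵐ x, ((n : ℝ) + 1) * ‖dyson Φ Ψ σ x‖ ^ 2 ≤ normSq Φ * density Ψ x := by
  filter_upwards [ae_slices Ψ] with x hx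
  have h1 := norm_sum_integral_sq_le (Finset.univ : Finset (Spn n))
    (f := fun s y => Φ.amp s y) (g := fun s y => Ψ.amp (Fin.cons σ s) (Fin.cons x y))
    (fun s _ => Φ.amp_memLp s) (fun s _ => hx _)
  have h2 := up_le_density Ψ σ x
  have h3 : normSq Φ = ∑ s, ∫ y, ‖Φ.amp s y‖ ^ 2 := rfl
  have h4 : 0 ≤ normSq Φ := by
    rw [h3]
    exact Finset.sum_nonneg fun s _ => integral_nonneg fun y => by positivity
  have h5 : (0 : ℝ) ≤ (n : ℝ) + 1 := by positivity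
  calc ((n : ℝ) + 1) * ‖dyson Φ Ψ σ x‖ ^ 2
      ≤ ((n : ℝ) + 1) * (normSq Φ *
        ∑ s : Spn n, ∫ y : Conf n, ‖Ψ.amp (Fin.cons σ s) (Fin.cons x y)‖ ^ 2) :=
        mul_le_mul_of_nonneg_left h1 h5
    _ = normSq Φ * (((n : ℝ) + 1) *
        ∑ s : Spn n, ∫ y : Conf n, ‖Ψ.amp (Fin.cons σ s) (Fin.cons x y)‖ ^ 2) := by ring
    _ ≤ _ := mul_le_mul_of_nonneg_left h2 h4

/-- `5 |dyson|² ≤ n` (Cauchy-Schwarz, `‖Φ‖ = 1`). -/
theorem dyson_le {Φ : ElectronState 4} {Ψ : ElectronState 5} (h : normSq Φ = 1) :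
    ∀ᵐ x, 5 * ‖dyson Φ Ψ 0 x‖ ^ 2 ≤ density Ψ x := by
  filter_upwards [dyson_le_gen Φ Ψ 0] with x hx
  rw [h, one_mul] at hx
  norm_num at hx
  exact hx

/-- bound of the remainder at a point, from the multipole bound. -/
theorem rem_le (Φ : ElectronState 4) (Ψ : ElectronState 5) : ∀ᵐ x : R3, ∀ B : ℝ, 0 ≤ B →
    (∀ s, Integrable fun y : Conf 4 => (mult x y) ^ 2 * ‖Φ.amp s y‖ ^ 2) →
    ∑ s, ∫ y : Conf 4, (mult x y) ^ 2 * ‖Φ.amp s y‖ ^ 2 ≤ B ^ 2 →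
    5 * ‖rem Φ Ψ x‖ ^ 2 ≤ B ^ 2 * density Ψ x := by
  filter_upwards [ae_slices Ψ] with x hx B hB hi hle
  have hm : ∀ s, AEStronglyMeasurable (fun y : Conf 4 => ((mult x y : ℝ) : ℂ) * Φ.amp s y)
      volume := by
    intro s
    refine AEStronglyMeasurable.mul ?_ (Φ.amp_memLp s).1
    refine (Complex.measurable_ofReal.comp ?_).aestronglyMeasurable
    unfold mult
    refine Measurable.sub (Finset.measurable_fun_sum _ fun j _ => ?_) measurable_const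
    exact ((by fun_prop : Continuous fun y : Conf 4 => ‖x - y j‖).measurable).const_div 1
  have hf : ∀ s, MemLp (fun y : Conf 4 => ((mult x y : ℝ) : ℂ) * Φ.amp s y) 2 volume := by
    intro s
    refine (memLp_two_iff_integrable_sq_norm (hm s)).2 ((hi s).congr
      (Eventually.of_forall fun y => ?_))
    simp only [norm_mul, Complex.norm_real, mul_pow, Real.norm_eq_abs, sq_abs]
  have h1 := norm_sum_integral_sq_le (Finset.univ : Finset (Spn 4))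
    (f := fun s y => ((mult x y : ℝ) : ℂ) * Φ.amp s y)
    (g := fun s y => Ψ.amp (Fin.cons 0 s) (Fin.cons x y))
    (fun s _ => hf s) (fun s _ => hx _)
  have e1 : rem Φ Ψ x = ∑ s, ∫ y, conj (((mult x y : ℝ) : ℂ) * Φ.amp s y) *
      Ψ.amp (Fin.cons 0 s) (Fin.cons x y) := by
    unfold rem
    refine Finset.sum_congr rfl fun s _ => ?_
    refine integral_congr_ae (Eventually.of_forall fun y => ?_)
    simp only [map_mul, Complex.conj_ofReal]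
    ring
  have e2 : ∑ s, ∫ y, ‖((mult x y : ℝ) : ℂ) * Φ.amp s y‖ ^ 2 =
      ∑ s, ∫ y : Conf 4, (mult x y) ^ 2 * ‖Φ.amp s y‖ ^ 2 := by
    refine Finset.sum_congr rfl fun s _ => ?_
    refine integral_congr_ae (Eventually.of_forall fun y => ?_)
    simp only [norm_mul, Complex.norm_real, mul_pow, Real.norm_eq_abs, sq_abs]
  have h2 := up_le_density Ψ 0 x
  norm_num at h2
  rw [← e1, e2] at h1
  have h3 : 0 ≤ ∑ s : Spn 4, ∫ y : Conf 4, ‖Ψ.amp (Fin.cons 0 s) (Fin.cons x y)‖ ^ 2 :=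
    Finset.sum_nonneg fun s _ => integral_nonneg fun y => by positivity
  calc 5 * ‖rem Φ Ψ x‖ ^ 2
      ≤ 5 * ((∑ s, ∫ y : Conf 4, (mult x y) ^ 2 * ‖Φ.amp s y‖ ^ 2) *
        ∑ s : Spn 4, ∫ y : Conf 4, ‖Ψ.amp (Fin.cons 0 s) (Fin.cons x y)‖ ^ 2) :=
        mul_le_mul_of_nonneg_left h1 (by norm_num)
    _ ≤ 5 * (B ^ 2 *
        ∑ s : Spn 4, ∫ y : Conf 4, ‖Ψ.amp (Fin.cons 0 s) (Fin.cons x y)‖ ^ 2) := by gcongr
    _ = B ^ 2 * (5 * ∑ s : Spn 4, ∫ y : Conf 4, ‖Ψ.amp (Fin.cons 0 s) (Fin.cons x y)‖ ^ 2) := by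
        ring
    _ ≤ _ := mul_le_mul_of_nonneg_left h2 (sq_nonneg B)

theorem density_nonneg' {n : ℕ} (Ψ : ElectronState (n + 1)) (x : R3) : 0 ≤ density Ψ x := by
  unfold density
  simp only [intR_eq]
  refine mul_nonneg (by positivity) (Finset.sum_nonneg fun s _ => integral_nonneg fun y => by
    positivity)

/-- `B5.Spec.rem_bound`, from the multipole bound `B5.Spec.mult_bound`. -/
theorem rem_bound_of (κ : ℝ)
    (hmult : ∃ ε > 0, ∃ C : ℝ, 0 ≤ C ∧ ∀ lam, 0 < lam → lam < ε →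
      ∀ (Φ : ElectronState 4) (Ψ : ElectronState 5), AtomPair κ lam ε Φ Ψ →
      ∀ x : R3, 1 ≤ ‖x‖ → (∀ s, Integrable fun y : Conf 4 => (mult x y) ^ 2 * ‖Φ.amp s y‖ ^ 2) ∧
        ∑ s, ∫ y : Conf 4, (mult x y) ^ 2 * ‖Φ.amp s y‖ ^ 2 ≤ (C / ‖x‖ ^ 2) ^ 2) :
    ∃ ε > 0, ∃ C : ℝ, 0 ≤ C ∧ ∀ lam, 0 < lam → lam < ε →
    ∀ (Φ : ElectronState 4) (Ψ : ElectronState 5), AtomPair κ lam ε Φ Ψ →
      AEStronglyMeasurable (rem Φ Ψ) volume ∧
        ∀ᵐ x, 1 ≤ ‖x‖ → ‖rem Φ Ψ x‖ ≤ C / ‖x‖ ^ 2 * Real.sqrt (density Ψ x) := by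
  obtain ⟨ε, hε, C, hC, H⟩ := hmult
  refine ⟨ε, hε, C, hC, fun lam hl hl' Φ Ψ P => ⟨(memLp_rem Φ Ψ).1, ?_⟩⟩
  filter_upwards [rem_le Φ Ψ] with x hx h1
  obtain ⟨hi, hle⟩ := H lam hl hl' Φ Ψ P x h1
  have hB : 0 ≤ C / ‖x‖ ^ 2 := by positivity
  have h2 := hx _ hB hi hle
  have hd := density_nonneg' Ψ x
  have h3 : ‖rem Φ Ψ x‖ ^ 2 ≤ (C / ‖x‖ ^ 2 * Real.sqrt (density Ψ x)) ^ 2 := by
    rw [mul_pow, Real.sq_sqrt hd]
    nlinarith [sq_nonneg ‖rem Φ Ψ x‖]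
  exact le_of_sq_le_sq₀ h3 (by positivity)
where
  le_of_sq_le_sq₀ {a b : ℝ} (h : a ^ 2 ≤ b ^ 2) (hb : 0 ≤ b) : a ≤ b :=
    le_of_abs_le ((sq_le_sq.1 h).trans (le_of_eq (abs_of_nonneg hb)))

end

end Vale.Agent.P363.H943
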