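import Vale.Agent.P363.H943.Tens
import Vale.Agent.P363.R.B5.Defs

/-! The equation of the Dyson amplitude. -/

namespace Vale.Agent.P363.H943

open MeasureTheory Filter Topology
open Vale.Agent.P363.Stmt
open Vale.Agent.P363.H382
open Vale.Agent.P363.R.Sob
open Vale.Agent.P363.R.Top
open scoped ContDiff ENNReal ComplexConjugate

noncomputable section

variable {n : ℕ}

/-- The multipole remainder `∑ⱼ 1/|x - yⱼ| - n/|x|`. -/
def multN (x : R3) (y : Conf n) : ℝ := (∑ j, 1 / ‖x - y j‖) - n / ‖x‖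

/-- `⟨(∑ⱼ 1/|x - yⱼ| - n/|x|) G, H(x, σ; ·)⟩`. -/
def remN (G : Fam n) (H : Fam (n + 1)) (σ : Fin 2) (x : R3) : ℂ :=
  ∑ s, contr (G.amp s) (fun z => ((multN (z 0) (tl z) : ℝ) : ℂ) * H.amp (Fin.cons σ s) z) x

theorem pot_split (lam : ℝ) (z : Conf (n + 1)) :
    pot lam z = -((1 - n * lam) / ‖z 0‖) + pot lam (tl z : Conf n) +
      lam * multN (z 0) (tl z) := by
  rw [R801.pot_succ]
  unfold multN tl
  ring

theorem memLp_mult_mul (H : Fam (n + 1)) (s : Spn (n + 1)) :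
    MemLp (fun z : Conf (n + 1) => ((multN (z 0) (tl z) : ℝ) : ℂ) * H.amp s z) 2 volume := by
  have : (fun z : Conf (n + 1) => ((multN (z 0) (tl z) : ℝ) : ℂ) * H.amp s z) =
      fun z => (∑ j : Fin n, ((1 / ‖z 0 - z j.succ‖ : ℝ) : ℂ) * H.amp s z) -
        (n : ℂ) * (((1 / ‖z 0‖ : ℝ) : ℂ) * H.amp s z) := by
    funext z
    unfold multN tl
    push_cast
    rw [sub_mul, Finset.sum_mul]
    congr 1
    ring
  rw [this]
  exact (memLp_finsetSum _ fun j _ => memLp_inv_two (H.amp_mem s) (H.grad_mem s) (H.wd s)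
    (Fin.succ_ne_zero j).symm).sub
    ((memLp_inv_one (H.amp_mem s) (H.grad_mem s) (H.wd s) 0).const_mul _)

theorem memLp_remN (G : Fam n) (H : Fam (n + 1)) (σ : Fin 2) : MemLp (remN G H σ) 2 volume :=
  memLp_finsetSum _ fun s _ => memLp_contr (G.amp_mem s) (memLp_mult_mul H _)

theorem contr_inv (g : Conf n → ℂ) (f : Conf (n + 1) → ℂ) (x : R3) :
    contr g (fun z => ((1 / ‖z 0‖ : ℝ) : ℂ) * f z) x = ((1 / ‖x‖ : ℝ) : ℂ) * contr g f x := by
  unfold contr
  rw [← integral_const_mul]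
  refine integral_congr_ae (Eventually.of_forall fun y => ?_)
  simp only [Fin.cons_zero]
  ring

section pair

variable (σ : Fin 2) {u : R3 → ℂ} {u' : Fin 3 → R3 → ℂ} (hu : MemLp u 2 volume)
    (hu' : ∀ k, MemLp (u' k) 2 volume) (hw : ∀ k, IsWD volume (e3 k) u (u' k)) (G : Fam n)
    (H : Fam (n + 1))

theorem integrable_inv_dys (hu : MemLp u 2 volume) :
    Integrable (fun x => ((1 / ‖x‖ : ℝ) : ℂ) * (conj (u x) * Fam.dys G H σ x)) := by
  have h1 : ∀ s : Spn n, Integrable (fun x => conj (u x) *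
      contr (G.amp s) (fun z => ((1 / ‖z 0‖ : ℝ) : ℂ) * H.amp (Fin.cons σ s) z) x) := fun s =>
    hu.star.integrable_mul (memLp_contr (G.amp_mem s)
      (memLp_inv_one (H.amp_mem _) (H.grad_mem _) (H.wd _) 0))
  have h2 := integrable_finsetSum (Finset.univ : Finset (Spn n)) fun s _ => h1 s
  refine h2.congr (Eventually.of_forall fun x => ?_)
  simp only [contr_inv, Fam.dys, Finset.mul_sum]
  exact Finset.sum_congr rfl fun s _ => by ring

theorem pot_tens (lam : ℝ) : Fam.pot (pot lam) (Fam.tens σ hu hu' hw G) H =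
    -((1 - n * lam : ℝ) : ℂ) * (∫ x, ((1 / ‖x‖ : ℝ) : ℂ) * (conj (u x) * Fam.dys G H σ x)) +
      Fam.pot (pot lam) G (Fam.cont σ hu H) +
      (lam : ℂ) * ∫ x, conj (u x) * remN G H σ x := by
  have h1 : Fam.pot (pot lam) (Fam.tens σ hu hu' hw G) H = ∑ s : Spn (n + 1), (if s 0 = σ then
      ∫ z, (pot lam z : ℂ) * (conj (u (z 0) * G.amp (tl s) (tl z)) * H.amp s z) else 0) := by
    unfold Fam.pot
    refine Finset.sum_congr rfl fun s _ => ?_
    by_cases h : s 0 = σ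
    · simp [Fam.tens, h]
    · simp [Fam.tens, h]
  rw [h1, Fam.sum_spin_ite]
  simp only [tl_cons]
  -- each spin configuration
  have key : ∀ s : Spn n, ∫ z, (pot lam z : ℂ) *
      (conj (u (z 0) * G.amp s (tl z)) * H.amp (Fin.cons σ s) z) =
      -((1 - n * lam : ℝ) : ℂ) * (∫ x, ((1 / ‖x‖ : ℝ) : ℂ) * (conj (u x) *
        contr (G.amp s) (H.amp (Fin.cons σ s)) x)) +
      (∫ y, (pot lam y : ℂ) * (conj (G.amp s y) * (Fam.cont σ hu H).amp s y)) +
      (lam : ℂ) * ∫ x, conj (u x) * contr (G.amp s)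
        (fun z => ((multN (z 0) (tl z) : ℝ) : ℂ) * H.amp (Fin.cons σ s) z) x := by
    intro s
    have m1 := memLp_inv_one (H.amp_mem (Fin.cons σ s)) (H.grad_mem _) (H.wd _) 0
    have m2 := memLp_mult_mul H (Fin.cons σ s)
    have m3 : MemLp (fun y => (pot lam y : ℂ) * G.amp s y) 2 volume :=
      memLp_pot_mul lam (G.amp_mem s) (G.grad_mem s) (G.wd s)
    have t0 := memLp_tens hu (G.amp_mem s)
    have t1 := memLp_tens hu m3
    have i1 : Integrable (fun z : Conf (n + 1) => conj (u (z 0) * G.amp s (tl z)) *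
      (((1 / ‖z 0‖ : ℝ) : ℂ) * H.amp (Fin.cons σ s) z)) := t0.star.integrable_mul m1
    have i2 : Integrable (fun z : Conf (n + 1) => conj (u (z 0) * G.amp s (tl z)) *
      (((multN (z 0) (tl z) : ℝ) : ℂ) * H.amp (Fin.cons σ s) z)) := t0.star.integrable_mul m2
    have i3 : Integrable (fun z : Conf (n + 1) =>
      conj (u (z 0) * ((pot lam (tl z : Conf n) : ℂ) * G.amp s (tl z))) *
        H.amp (Fin.cons σ s) z) := t1.star.integrable_mul (H.amp_mem _)
    have e0 : (fun z : Conf (n + 1) => (pot lam z : ℂ) *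
        (conj (u (z 0) * G.amp s (tl z)) * H.amp (Fin.cons σ s) z)) = fun z =>
        -((1 - n * lam : ℝ) : ℂ) * (conj (u (z 0) * G.amp s (tl z)) *
          (((1 / ‖z 0‖ : ℝ) : ℂ) * H.amp (Fin.cons σ s) z)) +
        conj (u (z 0) * ((pot lam (tl z : Conf n) : ℂ) * G.amp s (tl z))) *
          H.amp (Fin.cons σ s) z +
        (lam : ℂ) * (conj (u (z 0) * G.amp s (tl z)) *
          (((multN (z 0) (tl z) : ℝ) : ℂ) * H.amp (Fin.cons σ s) z)) := by
      funext z
      rw [pot_split]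
      simp only [map_mul, Complex.conj_ofReal]
      push_cast
      ring
    have j1 : Integrable (fun z : Conf (n + 1) =>
        -((1 - n * lam : ℝ) : ℂ) * (conj (u (z 0) * G.amp s (tl z)) *
          (((1 / ‖z 0‖ : ℝ) : ℂ) * H.amp (Fin.cons σ s) z)) +
        conj (u (z 0) * ((pot lam (tl z : Conf n) : ℂ) * G.amp s (tl z))) *
          H.amp (Fin.cons σ s) z) := (i1.const_mul _).add i3
    rw [e0, integral_add j1 (i2.const_mul _),
      integral_add (i1.const_mul _) i3, integral_const_mul, integral_const_mul,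
      integral_tens hu (G.amp_mem s) m1, integral_tens' hu m3 (H.amp_mem _),
      integral_tens hu (G.amp_mem s) m2]
    congr 1
    congr 1
    · congr 1
      refine integral_congr_ae (Eventually.of_forall fun x => ?_)
      simp only [contr_inv]
      ring
    · refine integral_congr_ae (Eventually.of_forall fun y => ?_)
      simp only [Fam.cont, map_mul, Complex.conj_ofReal]
      ring
  rw [Finset.sum_congr rfl fun s _ => key s, Finset.sum_add_distrib, Finset.sum_add_distrib,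
    ← Finset.mul_sum, ← Finset.mul_sum]
  congr 1
  · congr 1
    congr 1
    simp only [Fam.dys, Finset.mul_sum]
    rw [integral_finsetSum]
    intro s _
    have h2 : Integrable (fun x => conj (u x) *
      contr (G.amp s) (fun z => ((1 / ‖z 0‖ : ℝ) : ℂ) * H.amp (Fin.cons σ s) z) x) :=
      hu.star.integrable_mul (memLp_contr (G.amp_mem s)
        (memLp_inv_one (H.amp_mem _) (H.grad_mem _) (H.wd _) 0))
    refine h2.congr (Eventually.of_forall fun x => ?_)
    simp only [contr_inv]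
    ring
  · congr 1
    simp only [remN, Finset.mul_sum]
    rw [integral_finsetSum]
    exact fun s _ => hu.star.integrable_mul (memLp_contr (G.amp_mem s) (memLp_mult_mul H _))

theorem form_tens (lam : ℝ) : Fam.form (pot lam) (Fam.tens σ hu hu' hw G) H =
    (1 / 2) * (∑ k, ∫ x, conj (u' k x) * Fam.dysG G H σ k x) -
      ((1 - n * lam : ℝ) : ℂ) * (∫ x, ((1 / ‖x‖ : ℝ) : ℂ) * (conj (u x) * Fam.dys G H σ x)) +
      (lam : ℂ) * (∫ x, conj (u x) * remN G H σ x) +
      Fam.form (pot lam) G (Fam.cont σ hu H) := by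
  unfold Fam.form
  rw [Fam.kin_tens, pot_tens]
  ring

end pair

/-- **Dyson equation**, weak form with `H¹` test functions. -/
theorem dyson_weak {lam : ℝ} {Φ : ElectronState n} {Ψ : ElectronState (n + 1)}
    (hΦ : IsGroundState (pot lam) Φ) (hΨ : IsGroundState (pot lam) Ψ) (σ : Fin 2)
    {u : R3 → ℂ} {u' : Fin 3 → R3 → ℂ} (hu : MemLp u 2 volume)
    (hu' : ∀ k, MemLp (u' k) 2 volume) (hw : ∀ k, IsWD volume (e3 k) u (u' k)) :
    (1 / 2) * (∑ k, ∫ x, conj (u' k x) * Fam.dysG (fam Φ) (fam Ψ) σ k x) -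
      ((1 - n * lam : ℝ) : ℂ) *
        (∫ x, ((1 / ‖x‖ : ℝ) : ℂ) * (conj (u x) * Fam.dys (fam Φ) (fam Ψ) σ x)) +
      ((energy (pot lam) Φ - energy (pot lam) Ψ : ℝ) : ℂ) *
        (∫ x, conj (u x) * Fam.dys (fam Φ) (fam Ψ) σ x) =
      -(lam : ℂ) * ∫ x, conj (u x) * remN (fam Φ) (fam Ψ) σ x := by
  have h1 := el_pot hΨ (Fam.tens σ hu hu' hw (fam Φ))
  have h2 := congrArg conj (el_pot hΦ (Fam.cont σ hu (fam Ψ)))
  rw [Fam.form_conj, map_mul, Fam.inn_conj, Complex.conj_ofReal, ← Fam.inn_tens' σ hu hu' hw] at h2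
  rw [form_tens, h2, Fam.inn_tens] at h1
  rw [Complex.ofReal_sub (energy (pot lam) Φ) (energy (pot lam) Ψ)]
  linear_combination h1

theorem dys_eq_dyson (Φ : ElectronState n) (Ψ : ElectronState (n + 1)) (σ : Fin 2) :
    Fam.dys (fam Φ) (fam Ψ) σ = dyson Φ Ψ σ := rfl

/-- **Dyson equation** with test functions. -/
theorem dyson_test {lam : ℝ} {Φ : ElectronState n} {Ψ : ElectronState (n + 1)}
    (hΦ : IsGroundState (pot lam) Φ) (hΨ : IsGroundState (pot lam) Ψ) (σ : Fin 2)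
    {ζ : R3 → ℝ} (hζ : Test ζ) :
    -(1 / 2 : ℂ) * (∫ x, (B5.lapT ζ x : ℂ) * dyson Φ Ψ σ x) +
      ∫ x, (((energy (pot lam) Φ - energy (pot lam) Ψ - (1 - n * lam) / ‖x‖ : ℝ)) : ℂ) *
        ((ζ x : ℂ) * dyson Φ Ψ σ x) =
      -(lam : ℂ) * ∫ x, (ζ x : ℂ) * remN (fam Φ) (fam Ψ) σ x := by
  have hu : MemLp (fun x => (ζ x : ℂ)) 2 (volume : Measure R3) := (hζ.memLp 2).ofReal
  have hd : ∀ k, Test (fun x => fderiv ℝ ζ x (e3 k)) := fun k => hζ.fderiv _
  have hu' : ∀ k, MemLp (fun x => ((fderiv ℝ ζ x (e3 k) : ℝ) : ℂ)) 2 (volume : Measure R3) :=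
    fun k => ((hd k).memLp 2).ofReal
  have hw : ∀ k, IsWD (volume : Measure R3) (e3 k) (fun x => (ζ x : ℂ))
      (fun x => ((fderiv ℝ ζ x (e3 k) : ℝ) : ℂ)) := by
    intro k
    refine isWD_of_differentiable (Complex.continuous_ofReal.comp hζ.continuous) (fun x => ?_)
      ((hu' k).locallyIntegrable (by norm_num))
    have h1 : HasLineDerivAt ℝ ζ (fderiv ℝ ζ x (e3 k)) x (e3 k) :=
      (hζ.differentiable x).hasFDerivAt.hasLineDerivAt _
    exact HasDerivAt.ofReal_comp h1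
  have h := dyson_weak hΦ hΨ σ hu hu' hw
  simp only [Complex.conj_ofReal, dys_eq_dyson] at h
  have hmem : MemLp (dyson Φ Ψ σ) 2 volume := Fam.memLp_dys (fam Φ) (fam Ψ) σ
  have e1 : ∀ k, ∫ x, ((fderiv ℝ ζ x (e3 k) : ℝ) : ℂ) * Fam.dysG (fam Φ) (fam Ψ) σ k x =
      -∫ x, ((fderiv ℝ (fun y => fderiv ℝ ζ y (e3 k)) x (e3 k) : ℝ) : ℂ) * dyson Φ Ψ σ x := by
    intro k
    have h2 := Fam.isWD_dys (fam Φ) (fam Ψ) σ k _ (hd k)
    simp only [Complex.real_smul, dys_eq_dyson] at h2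
    rw [h2, neg_neg]
  have e2 : ∫ x, (B5.lapT ζ x : ℂ) * dyson Φ Ψ σ x =
      ∑ k, ∫ x, ((fderiv ℝ (fun y => fderiv ℝ ζ y (e3 k)) x (e3 k) : ℝ) : ℂ) * dyson Φ Ψ σ x := by
    rw [← integral_finsetSum]
    · refine integral_congr_ae (Eventually.of_forall fun x => ?_)
      simp only [B5.lapT]
      push_cast
      rw [Finset.sum_mul]
      rfl
    · exact fun k _ => (((hd k).fderiv (e3 k)).memLp (μ := (volume : Measure R3)) 2).ofReal.integrable_mul
        hmem
  have i1 : Integrable (fun x => (ζ x : ℂ) * dyson Φ Ψ σ x) := hu.integrable_mul hmem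
  have i2 : Integrable (fun x => ((1 / ‖x‖ : ℝ) : ℂ) * ((ζ x : ℂ) * dyson Φ Ψ σ x)) := by
    have := integrable_inv_dys σ (fam Φ) (fam Ψ) hu
    simpa only [Complex.conj_ofReal, dys_eq_dyson] using this
  have e3' : ∫ x, (((energy (pot lam) Φ - energy (pot lam) Ψ - (1 - n * lam) / ‖x‖ : ℝ)) : ℂ) *
        ((ζ x : ℂ) * dyson Φ Ψ σ x) =
      ((energy (pot lam) Φ - energy (pot lam) Ψ : ℝ) : ℂ) * (∫ x, (ζ x : ℂ) * dyson Φ Ψ σ x) -
      ((1 - n * lam : ℝ) : ℂ) * ∫ x, ((1 / ‖x‖ : ℝ) : ℂ) * ((ζ x : ℂ) * dyson Φ Ψ σ x) := by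
    rw [← integral_const_mul, ← integral_const_mul, ← integral_sub (i1.const_mul _)
      (i2.const_mul _)]
    refine integral_congr_ae (Eventually.of_forall fun x => ?_)
    simp only
    push_cast
    ring
  simp only [e1] at h
  rw [e2, e3', ← h]
  simp only [Finset.sum_neg_distrib]
  ring

end

end Vale.Agent.P363.H943
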