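import Vale.Agent.P363.H943.Fam

/-! Weak Euler-Lagrange equation of a ground state, tested against arbitrary families. -/

namespace Vale.Agent.P363.H943

open MeasureTheory Filter Topology
open Vale.Agent.P363.Stmt
open Vale.Agent.P363.H382
open Vale.Agent.P363.R.Sob
open scoped ContDiff ENNReal ComplexConjugate

noncomputable section

variable {N : ℕ}

/-- antisymmetric family -/
def Anti (F : Fam N) : Prop := ∀ (σ : Equiv.Perm (Fin N)) (s : Spn N),
  ∀ᵐ x : Conf N, F.amp (s ∘ σ) (x ∘ σ) = ((Equiv.Perm.sign σ : ℤ) : ℂ) * F.amp s x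

/-- an antisymmetric family is an `ElectronState`. -/
def toState (F : Fam N) (h : Anti F) : ElectronState N where
  amp := F.amp
  grad := F.grad
  amp_memLp := F.amp_mem
  grad_memLp := F.grad_mem
  grad_weak s i k := isWeakDeriv_iff.2 (F.wd s i k)
  antisymm := h

@[simp] theorem fam_toState (F : Fam N) (h : Anti F) : fam (toState F h) = F := rfl

theorem anti_fam (Ψ : ElectronState N) : Anti (fam Ψ) := Ψ.antisymm

theorem Anti.add {F G : Fam N} (hF : Anti F) (hG : Anti G) : Anti (F.add G) := by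
  intro σ s
  filter_upwards [hF σ s, hG σ s] with x h1 h2
  simp only [Fam.add, h1, h2]
  ring

theorem Anti.smul {F : Fam N} (hF : Anti F) (c : ℂ) : Anti (F.smul c) := by
  intro σ s
  filter_upwards [hF σ s] with x h1
  simp only [Fam.smul, h1]
  ring

/-! ### ground states -/

/-- energy lower bound for all states. -/
theorem ground_le {w : Conf N → ℝ} {Ψ : ElectronState N} (h : IsGroundState w Ψ)
    {F : Fam N} (hF : Anti F) : energy w Ψ * F.nsq ≤ F.en w := by
  rcases F.nsq_nonneg.eq_or_lt with h0 | h0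
  · rw [← h0, mul_zero, Fam.en_eq_zero_of_nsq h0.symm]
  · set c : ℝ := (Real.sqrt F.nsq)⁻¹ with hc
    have hs : 0 < Real.sqrt F.nsq := Real.sqrt_pos.2 h0
    have hcc : ‖(c : ℂ)‖ ^ 2 = F.nsq⁻¹ := by
      rw [Complex.norm_real, Real.norm_eq_abs, sq_abs, hc, inv_pow, Real.sq_sqrt h0.le]
    have h1 : normSq (toState (F.smul c) (hF.smul c)) = 1 := by
      rw [← nsq_fam, fam_toState, Fam.nsq_smul, hcc]
      exact inv_mul_cancel₀ h0.ne'
    have h2 := h.2 _ h1
    rw [← en_fam w (toState (F.smul c) (hF.smul c)), fam_toState, Fam.en_smul, hcc] at h2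
    calc energy w Ψ * F.nsq ≤ (F.nsq⁻¹ * F.en w) * F.nsq := mul_le_mul_of_nonneg_right h2 h0.le
      _ = F.en w := by field_simp

theorem ground_le' {w : Conf N → ℝ} {Ψ : ElectronState N} (h : IsGroundState w Ψ)
    (Φ : ElectronState N) : energy w Ψ * normSq Φ ≤ energy w Φ :=
  ground_le h (anti_fam Φ)

/-- Euler-Lagrange equation against antisymmetric families. -/
theorem el_anti {w : Conf N → ℝ} (hw : Adm w) {Ψ : ElectronState N} (h : IsGroundState w Ψ)
    {F : Fam N} (hF : Anti F) :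
    Fam.form w F (fam Ψ) = (energy w Ψ : ℂ) * Fam.inn F (fam Ψ) := by
  set E := energy w Ψ with hE
  -- it suffices to treat the other order
  suffices H : Fam.form w (fam Ψ) F = (E : ℂ) * Fam.inn (fam Ψ) F by
    have := congrArg conj H
    rwa [Fam.form_conj, map_mul, Fam.inn_conj, Complex.conj_ofReal] at this
  set z : ℂ := Fam.form w (fam Ψ) F - (E : ℂ) * Fam.inn (fam Ψ) F with hz
  set A : ℝ := F.en w - E * F.nsq with hA
  have hA0 : 0 ≤ A := by
    have := ground_le h hF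
    linarith
  have key : ∀ t : ℂ, 0 ≤ 2 * (t * z).re + ‖t‖ ^ 2 * A := by
    intro t
    have h1 := ground_le h (F := (fam Ψ).add (F.smul t)) ((anti_fam Ψ).add (hF.smul t))
    rw [Fam.nsq_add_smul, Fam.en_add_smul hw, nsq_fam, en_fam, h.1, ← hE] at h1
    have e : (t * z).re = (t * Fam.form w (fam Ψ) F).re - E * (t * Fam.inn (fam Ψ) F).re := by
      rw [hz, mul_sub, Complex.sub_re]
      congr 1
      rw [mul_left_comm, Complex.re_ofReal_mul]
    rw [e, hA]
    nlinarith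
  have hz0 : z = 0 := by
    by_contra hne
    have hpos : 0 < ‖z‖ ^ 2 := by positivity
    have h2 := key (-(1 / (A + 1) : ℝ) * conj z)
    have e1 : ((-(1 / (A + 1) : ℝ) : ℂ) * conj z * z) = ((-(1 / (A + 1)) * ‖z‖ ^ 2 : ℝ) : ℂ) := by
      rw [mul_assoc, Complex.conj_mul']
      push_cast
      ring
    have e2 : ‖(-(1 / (A + 1) : ℝ) : ℂ) * conj z‖ ^ 2 = (1 / (A + 1)) ^ 2 * ‖z‖ ^ 2 := by
      rw [norm_mul, norm_neg, Complex.norm_real, RCLike.norm_conj, mul_pow, Real.norm_eq_abs, sq_abs]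
    rw [e2, e1, Complex.ofReal_re] at h2
    have h3 : 0 < 1 / (A + 1) := by positivity
    have h4 : (1 / (A + 1)) ^ 2 * A ≤ 1 / (A + 1) := by
      have : (1 / (A + 1)) ^ 2 * A = (1 / (A + 1)) * (A / (A + 1)) := by field_simp
      rw [this]
      have h5 : A / (A + 1) ≤ 1 := by
        rw [div_le_one (by positivity)]
        linarith
      nlinarith
    nlinarith
  have := sub_eq_zero.1 (hz.symm.trans hz0)
  exact this

/-! ### permutations -/

namespace Fam

/-- action of a permutation of the electrons -/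
def perm (σ : Equiv.Perm (Fin N)) (F : Fam N) : Fam N where
  amp s x := F.amp (s ∘ σ) (x ∘ σ)
  grad s i k x := F.grad (s ∘ σ) (σ.symm i) k (x ∘ σ)
  amp_mem s := (F.amp_mem (s ∘ σ)).comp_measurePreserving (permE_mp σ)
  grad_mem s i k := (F.grad_mem (s ∘ σ) (σ.symm i) k).comp_measurePreserving (permE_mp σ)
  wd s i k := by
    have h := isWD_comp_equiv (permE σ) (permE_mp σ) (v := dir i k) (f := F.amp (s ∘ σ))
      (g := F.grad (s ∘ σ) (σ.symm i) k) (by
        rw [dir_comp]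
        exact F.wd (s ∘ σ) (σ.symm i) k)
    exact h

theorem sum_spn_comp {M : Type*} [AddCommMonoid M] (σ : Equiv.Perm (Fin N)) (f : Spn N → M) :
    ∑ s, f (s ∘ σ) = ∑ s, f s :=
  (Equiv.arrowCongr σ (Equiv.refl (Fin 2))).symm.sum_comp f

theorem inn_perm (σ : Equiv.Perm (Fin N)) (F G : Fam N) :
    inn (F.perm σ) (G.perm σ) = inn F G := by
  unfold inn
  rw [← sum_spn_comp σ fun s => ∫ x, conj (F.amp s x) * G.amp s x]
  refine Finset.sum_congr rfl fun s _ => ?_
  exact integral_comp_equiv (permE σ) (permE_mp σ)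
    (fun x => conj (F.amp (s ∘ σ) x) * G.amp (s ∘ σ) x)

theorem kin_perm (σ : Equiv.Perm (Fin N)) (F G : Fam N) :
    kin (F.perm σ) (G.perm σ) = kin F G := by
  unfold kin
  congr 1
  rw [← sum_spn_comp σ fun s => ∑ i, ∑ k, ∫ x, conj (F.grad s i k x) * G.grad s i k x]
  refine Finset.sum_congr rfl fun s _ => ?_
  rw [← Equiv.sum_comp σ.symm
    (fun i => ∑ k, ∫ x, conj (F.grad (s ∘ σ) i k x) * G.grad (s ∘ σ) i k x)]
  refine Finset.sum_congr rfl fun i _ => Finset.sum_congr rfl fun k _ => ?_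
  exact integral_comp_equiv (permE σ) (permE_mp σ)
    (fun x => conj (F.grad (s ∘ σ) (σ.symm i) k x) * G.grad (s ∘ σ) (σ.symm i) k x)

theorem pot_perm {w : Conf N → ℝ} (hw : ∀ (σ : Equiv.Perm (Fin N)) x, w (x ∘ σ) = w x)
    (σ : Equiv.Perm (Fin N)) (F G : Fam N) :
    pot w (F.perm σ) (G.perm σ) = pot w F G := by
  unfold pot
  rw [← sum_spn_comp σ fun s => ∫ x, (w x : ℂ) * (conj (F.amp s x) * G.amp s x)]
  refine Finset.sum_congr rfl fun s _ => ?_
  rw [← integral_comp_equiv (permE σ) (permE_mp σ)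
    (fun x => (w x : ℂ) * (conj (F.amp (s ∘ σ) x) * G.amp (s ∘ σ) x))]
  refine integral_congr_ae (Eventually.of_forall fun x => ?_)
  simp only [permE_apply, hw σ x, perm]

theorem form_perm {w : Conf N → ℝ} (hw : ∀ (σ : Equiv.Perm (Fin N)) x, w (x ∘ σ) = w x)
    (σ : Equiv.Perm (Fin N)) (F G : Fam N) :
    form w (F.perm σ) (G.perm σ) = form w F G := by
  unfold form
  rw [kin_perm, pot_perm hw]

/-- two families with a.e. equal components -/
def AEq (F G : Fam N) : Prop := (∀ s, F.amp s =ᵐ[volume] G.amp s) ∧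
  ∀ s i k, F.grad s i k =ᵐ[volume] G.grad s i k

theorem AEq.of_amp {F G : Fam N} (h : ∀ s, F.amp s =ᵐ[volume] G.amp s) : AEq F G :=
  ⟨h, fun s i k => IsWD.unique ((F.wd s i k).congr (h s) (EventuallyEq.refl _ _)) (G.wd s i k)
    ((F.grad_mem s i k).locallyIntegrable (by norm_num))
    ((G.grad_mem s i k).locallyIntegrable (by norm_num))⟩

theorem AEq.form_right {w : Conf N → ℝ} {G G' : Fam N} (h : AEq G G') (F : Fam N) :
    form w F G = form w F G' := by
  unfold form kin pot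
  congr 1
  · congr 1
    refine Finset.sum_congr rfl fun s _ => Finset.sum_congr rfl fun i _ =>
      Finset.sum_congr rfl fun k _ => ?_
    refine integral_congr_ae ((h.2 s i k).mono fun x hx => ?_)
    simp only [hx]
  · refine Finset.sum_congr rfl fun s _ => ?_
    refine integral_congr_ae ((h.1 s).mono fun x hx => ?_)
    simp only [hx]

theorem AEq.inn_right {G G' : Fam N} (h : AEq G G') (F : Fam N) : inn F G = inn F G' := by
  unfold inn
  refine Finset.sum_congr rfl fun s _ => ?_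
  refine integral_congr_ae ((h.1 s).mono fun x hx => ?_)
  simp only [hx]

theorem form_sum_left {w : Conf N → ℝ} (hw : Adm w) {ι : Type*} (S : Finset ι) (F : ι → Fam N)
    (G : Fam N) : form w (sum S F) G = ∑ j ∈ S, form w (F j) G := by
  classical
  induction S using Finset.induction_on with
  | empty =>
    rw [Finset.sum_empty]
    have : sum (∅ : Finset ι) F = zero := by
      unfold sum zero
      simp only [Finset.sum_empty]
    rw [this]
    unfold form kin pot zero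
    simp
  | insert a S ha ih =>
    rw [Finset.sum_insert ha, ← ih, ← form_add_left hw]
    congr 1
    unfold sum add
    simp only [Finset.sum_insert ha]

theorem inn_sum_left {ι : Type*} (S : Finset ι) (F : ι → Fam N)
    (G : Fam N) : inn (sum S F) G = ∑ j ∈ S, inn (F j) G := by
  unfold inn
  simp only [sum, map_sum, Finset.sum_mul]
  rw [Finset.sum_comm]
  refine Finset.sum_congr rfl fun s _ => ?_
  rw [integral_finsetSum _ fun j _ => int_amp (F j) G s]

/-- antisymmetrisation (without the factor `1/N!`). -/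
def asym (F : Fam N) : Fam N :=
  sum Finset.univ fun σ : Equiv.Perm (Fin N) => (F.perm σ).smul ((Equiv.Perm.sign σ : ℤ) : ℂ)

end Fam

theorem sign_mul_self' (σ : Equiv.Perm (Fin N)) :
    ((Equiv.Perm.sign σ : ℤ) : ℂ) * ((Equiv.Perm.sign σ : ℤ) : ℂ) = 1 := by
  rcases Int.units_eq_one_or (Equiv.Perm.sign σ) with h | h <;> simp [h]

theorem anti_asym (F : Fam N) : Anti F.asym := by
  intro τ s
  refine Eventually.of_forall fun x => ?_
  simp only [Fam.asym, Fam.sum, Fam.smul, Fam.perm]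
  rw [Finset.mul_sum]
  -- reindex `σ ↦ τ⁻¹ * σ`
  refine Finset.sum_nbij' (fun σ => τ * σ) (fun σ => τ⁻¹ * σ) ?_ ?_ ?_ ?_ ?_
  · intro σ _; exact Finset.mem_univ _
  · intro σ _; exact Finset.mem_univ _
  · intro σ _; simp
  · intro σ _; simp
  · intro σ _
    have e1 : (s ∘ τ) ∘ σ = s ∘ (τ * σ : Equiv.Perm (Fin N)) := rfl
    have e2 : (x ∘ τ) ∘ σ = x ∘ (τ * σ : Equiv.Perm (Fin N)) := rfl
    rw [e1, e2, Equiv.Perm.sign_mul]
    push_cast
    rw [← mul_assoc, ← mul_assoc, sign_mul_self', one_mul]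

theorem perm_fam_aeq (σ : Equiv.Perm (Fin N)) (Ψ : ElectronState N) :
    Fam.AEq ((fam Ψ).perm σ) ((fam Ψ).smul ((Equiv.Perm.sign σ : ℤ) : ℂ)) :=
  Fam.AEq.of_amp fun s => Ψ.antisymm σ s

/-- antisymmetry of the gradients. -/
theorem grad_antisymm (Ψ : ElectronState N) (σ : Equiv.Perm (Fin N)) (s : Spn N) (i : Fin N)
    (k : Fin 3) : ∀ᵐ x : Conf N, Ψ.grad (s ∘ σ) (σ.symm i) k (x ∘ σ) =
      ((Equiv.Perm.sign σ : ℤ) : ℂ) * Ψ.grad s i k x :=
  (perm_fam_aeq σ Ψ).2 s i k

theorem form_perm_left {w : Conf N → ℝ} (hs : ∀ (σ : Equiv.Perm (Fin N)) x, w (x ∘ σ) = w x)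
    (σ : Equiv.Perm (Fin N)) (F : Fam N) (Ψ : ElectronState N) :
    Fam.form w ((F.perm σ).smul ((Equiv.Perm.sign σ : ℤ) : ℂ)) (fam Ψ) =
      Fam.form w F (fam Ψ) := by
  have hc : conj ((Equiv.Perm.sign σ : ℤ) : ℂ) = ((Equiv.Perm.sign σ : ℤ) : ℂ) := by
    simp
  rw [Fam.form_smul_left, hc, ← Fam.form_smul_right, ← (perm_fam_aeq σ Ψ).form_right,
    Fam.form_perm hs]

theorem inn_perm_left (σ : Equiv.Perm (Fin N)) (F : Fam N) (Ψ : ElectronState N) :
    Fam.inn ((F.perm σ).smul ((Equiv.Perm.sign σ : ℤ) : ℂ)) (fam Ψ) = Fam.inn F (fam Ψ) := by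
  have hc : conj ((Equiv.Perm.sign σ : ℤ) : ℂ) = ((Equiv.Perm.sign σ : ℤ) : ℂ) := by
    simp
  rw [Fam.inn_smul_left, hc, ← Fam.inn_smul_right, ← (perm_fam_aeq σ Ψ).inn_right, Fam.inn_perm]

theorem form_asym {w : Conf N → ℝ} (hw : Adm w)
    (hs : ∀ (σ : Equiv.Perm (Fin N)) x, w (x ∘ σ) = w x) (F : Fam N) (Ψ : ElectronState N) :
    Fam.form w F.asym (fam Ψ) = (Fintype.card (Equiv.Perm (Fin N)) : ℂ) * Fam.form w F (fam Ψ) := by
  unfold Fam.asym
  rw [Fam.form_sum_left hw, Finset.sum_congr rfl fun σ _ => form_perm_left hs σ F Ψ]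
  simp

theorem inn_asym (F : Fam N) (Ψ : ElectronState N) :
    Fam.inn F.asym (fam Ψ) = (Fintype.card (Equiv.Perm (Fin N)) : ℂ) * Fam.inn F (fam Ψ) := by
  unfold Fam.asym
  rw [Fam.inn_sum_left, Finset.sum_congr rfl fun σ _ => inn_perm_left σ F Ψ]
  simp

/-- **Weak Euler-Lagrange equation** of a ground state, against an arbitrary family. -/
theorem el {w : Conf N → ℝ} (hw : Adm w) (hs : ∀ (σ : Equiv.Perm (Fin N)) x, w (x ∘ σ) = w x)
    {Ψ : ElectronState N} (h : IsGroundState w Ψ) (F : Fam N) :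
    Fam.form w F (fam Ψ) = (energy w Ψ : ℂ) * Fam.inn F (fam Ψ) := by
  have h1 := el_anti hw h (anti_asym F)
  rw [form_asym hw hs, inn_asym] at h1
  have hc : (Fintype.card (Equiv.Perm (Fin N)) : ℂ) ≠ 0 := by
    exact_mod_cast Fintype.card_ne_zero
  have h2 : (Fintype.card (Equiv.Perm (Fin N)) : ℂ) * Fam.form w F (fam Ψ) =
      (Fintype.card (Equiv.Perm (Fin N)) : ℂ) * ((energy w Ψ : ℂ) * Fam.inn F (fam Ψ)) := by
    rw [h1]; ring
  exact mul_left_cancel₀ hc h2

/-- the Euler-Lagrange equation written out. -/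
theorem el' {w : Conf N → ℝ} (hw : Adm w) (hs : ∀ (σ : Equiv.Perm (Fin N)) x, w (x ∘ σ) = w x)
    {Ψ : ElectronState N} (h : IsGroundState w Ψ)
    (f : Spn N → Conf N → ℂ) (g : Spn N → Fin N → Fin 3 → Conf N → ℂ)
    (hf : ∀ s, MemLp (f s) 2 (volume : Measure (Conf N)))
    (hg : ∀ s i k, MemLp (g s i k) 2 (volume : Measure (Conf N)))
    (hwd : ∀ s i k, IsWD (volume : Measure (Conf N)) (dir i k) (f s) (g s i k)) :
    (1 / 2) * (∑ s, ∑ i, ∑ k, ∫ x, conj (g s i k x) * Ψ.grad s i k x) +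
      ∑ s, ∫ x, (w x : ℂ) * (conj (f s x) * Ψ.amp s x) =
      (energy w Ψ : ℂ) * ∑ s, ∫ x, conj (f s x) * Ψ.amp s x :=
  el hw hs h ⟨f, g, hf, hg, hwd⟩

end

end Vale.Agent.P363.H943
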