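import Vale.Agent.P363.H382.Conv
import Vale.Agent.P363.R.Sob.S01

/-! Families of `L²` amplitudes with `L²` weak derivatives (no symmetry), sesquilinear forms. -/

namespace Vale.Agent.P363.H943

open MeasureTheory Filter Topology
open Vale.Agent.P363.Stmt
open Vale.Agent.P363.H382
open Vale.Agent.P363.R.Sob
open scoped ContDiff ENNReal ComplexConjugate

noncomputable section

/-- A family of `L²` amplitudes (one for each spin configuration) with `L²` weak derivatives;
no antisymmetry. -/
structure Fam (N : ℕ) where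
  amp : Spn N → Conf N → ℂ
  grad : Spn N → Fin N → Fin 3 → Conf N → ℂ
  amp_mem : ∀ s, MemLp (amp s) 2 (volume : Measure (Conf N))
  grad_mem : ∀ s i k, MemLp (grad s i k) 2 (volume : Measure (Conf N))
  wd : ∀ s i k, IsWD (volume : Measure (Conf N)) (dir i k) (amp s) (grad s i k)

/-- An `ElectronState` as a family. -/
def fam {N : ℕ} (Ψ : ElectronState N) : Fam N where
  amp := Ψ.amp
  grad := Ψ.grad
  amp_mem := Ψ.amp_memLp
  grad_mem := Ψ.grad_memLp
  wd s i k := isWeakDeriv_iff.1 (Ψ.grad_weak s i k)

@[simp] theorem fam_amp {N : ℕ} (Ψ : ElectronState N) : (fam Ψ).amp = Ψ.amp := rfl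
@[simp] theorem fam_grad {N : ℕ} (Ψ : ElectronState N) : (fam Ψ).grad = Ψ.grad := rfl

namespace Fam

variable {N : ℕ}

/-- `L²` inner product -/
def inn (F G : Fam N) : ℂ := ∑ s, ∫ x, conj (F.amp s x) * G.amp s x

/-- kinetic energy form -/
def kin (F G : Fam N) : ℂ := (1 / 2) * ∑ s, ∑ i, ∑ k, ∫ x, conj (F.grad s i k x) * G.grad s i k x

/-- potential energy form -/
def pot (w : Conf N → ℝ) (F G : Fam N) : ℂ := ∑ s, ∫ x, (w x : ℂ) * (conj (F.amp s x) * G.amp s x)

/-- energy form -/
def form (w : Conf N → ℝ) (F G : Fam N) : ℂ := kin F G + pot w F G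

/-- squared norm -/
def nsq (F : Fam N) : ℝ := ∑ s, ∫ x, ‖F.amp s x‖ ^ 2

/-- energy -/
def en (w : Conf N → ℝ) (F : Fam N) : ℝ :=
  (1 / 2) * (∑ s, ∑ i, ∑ k, ∫ x, ‖F.grad s i k x‖ ^ 2) + ∑ s, ∫ x, w x * ‖F.amp s x‖ ^ 2

end Fam

theorem nsq_fam {N : ℕ} (Ψ : ElectronState N) : (fam Ψ).nsq = normSq Ψ := rfl

theorem en_fam {N : ℕ} (w : Conf N → ℝ) (Ψ : ElectronState N) : (fam Ψ).en w = energy w Ψ := rfl

/-- `w` is a potential that can be integrated against every family of finite kinetic energy. -/
structure Adm {N : ℕ} (w : Conf N → ℝ) : Prop where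
  meas : AEStronglyMeasurable w (volume : Measure (Conf N))
  int : ∀ (f : Conf N → ℂ) (g : Fin N → Fin 3 → Conf N → ℂ), MemLp f 2 (volume : Measure (Conf N)) →
    (∀ i k, MemLp (g i k) 2 (volume : Measure (Conf N))) →
    (∀ i k, IsWD (volume : Measure (Conf N)) (dir i k) f (g i k)) →
    Integrable (fun x => w x * ‖f x‖ ^ 2)

namespace Fam

variable {N : ℕ}

theorem int_amp (F G : Fam N) (s : Spn N) :
    Integrable (fun x => conj (F.amp s x) * G.amp s x) :=
  (F.amp_mem s).star.integrable_mul (G.amp_mem s)

theorem int_grad (F G : Fam N) (s : Spn N) (i : Fin N) (k : Fin 3) :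
    Integrable (fun x => conj (F.grad s i k x) * G.grad s i k x) :=
  (F.grad_mem s i k).star.integrable_mul (G.grad_mem s i k)

theorem int_w_sq {w : Conf N → ℝ} (hw : Adm w) (F : Fam N) (s : Spn N) :
    Integrable (fun x => w x * ‖F.amp s x‖ ^ 2) :=
  hw.int _ _ (F.amp_mem s) (F.grad_mem s) (F.wd s)

theorem int_pot {w : Conf N → ℝ} (hw : Adm w) (F G : Fam N) (s : Spn N) :
    Integrable (fun x => (w x : ℂ) * (conj (F.amp s x) * G.amp s x)) := by
  have h1 := (F.int_w_sq hw s).norm.add (G.int_w_sq hw s).norm
  refine h1.mono' ?_ (Eventually.of_forall fun x => ?_)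
  · exact (Complex.continuous_ofReal.comp_aestronglyMeasurable hw.meas).mul
      (F.int_amp G s).aestronglyMeasurable
  · simp only [Pi.add_apply, norm_mul, Complex.norm_real, RCLike.norm_conj, norm_pow, norm_norm]
    have : ‖F.amp s x‖ * ‖G.amp s x‖ ≤ ‖F.amp s x‖ ^ 2 + ‖G.amp s x‖ ^ 2 := by
      nlinarith [sq_nonneg (‖F.amp s x‖ - ‖G.amp s x‖), sq_nonneg (‖F.amp s x‖),
        sq_nonneg (‖G.amp s x‖)]
    calc ‖w x‖ * (‖F.amp s x‖ * ‖G.amp s x‖) ≤ ‖w x‖ * (‖F.amp s x‖ ^ 2 + ‖G.amp s x‖ ^ 2) :=
          mul_le_mul_of_nonneg_left this (norm_nonneg _)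
      _ = _ := by ring

/-! ### algebra -/

/-- sum of families -/
def add (F G : Fam N) : Fam N where
  amp s x := F.amp s x + G.amp s x
  grad s i k x := F.grad s i k x + G.grad s i k x
  amp_mem s := (F.amp_mem s).add (G.amp_mem s)
  grad_mem s i k := (F.grad_mem s i k).add (G.grad_mem s i k)
  wd s i k := (F.wd s i k).add (G.wd s i k) ((F.amp_mem s).locallyIntegrable (by norm_num))
    ((F.grad_mem s i k).locallyIntegrable (by norm_num))
    ((G.amp_mem s).locallyIntegrable (by norm_num))
    ((G.grad_mem s i k).locallyIntegrable (by norm_num))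

/-- scalar multiple of a family -/
def smul (c : ℂ) (F : Fam N) : Fam N where
  amp s x := c * F.amp s x
  grad s i k x := c * F.grad s i k x
  amp_mem s := (F.amp_mem s).const_mul c
  grad_mem s i k := (F.grad_mem s i k).const_mul c
  wd s i k := (F.wd s i k).const_smul c

/-- the zero family -/
def zero : Fam N where
  amp _ _ := 0
  grad _ _ _ _ := 0
  amp_mem _ := MemLp.zero
  grad_mem _ _ _ := MemLp.zero
  wd _ _ _ := isWD_zero

/-- finite sum of families -/
def sum {ι : Type*} (S : Finset ι) (F : ι → Fam N) : Fam N where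
  amp s x := ∑ j ∈ S, (F j).amp s x
  grad s i k x := ∑ j ∈ S, (F j).grad s i k x
  amp_mem s := memLp_finsetSum _ fun j _ => (F j).amp_mem s
  grad_mem s i k := memLp_finsetSum _ fun j _ => (F j).grad_mem s i k
  wd s i k := by
    classical
    induction S using Finset.induction_on with
    | empty => simpa using (isWD_zero (μ := (volume : Measure (Conf N))) (v := dir i k) (F := ℂ))
    | insert j S hj ih =>
      have h := ((F j).wd s i k).add ih (((F j).amp_mem s).locallyIntegrable (by norm_num))
        (((F j).grad_mem s i k).locallyIntegrable (by norm_num))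
        ((memLp_finsetSum _ fun j _ => (F j).amp_mem s).locallyIntegrable (by norm_num))
        ((memLp_finsetSum _ fun j _ => (F j).grad_mem s i k).locallyIntegrable (by norm_num))
      simpa only [Finset.sum_insert hj] using h

theorem inn_add_left (F F' G : Fam N) : inn (F.add F') G = inn F G + inn F' G := by
  unfold inn
  rw [← Finset.sum_add_distrib]
  refine Finset.sum_congr rfl fun s _ => ?_
  rw [← integral_add (int_amp _ _ _) (int_amp _ _ _)]
  refine integral_congr_ae (Eventually.of_forall fun x => ?_)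
  simp [add, add_mul]

theorem inn_add_right (F G G' : Fam N) : inn F (G.add G') = inn F G + inn F G' := by
  unfold inn
  rw [← Finset.sum_add_distrib]
  refine Finset.sum_congr rfl fun s _ => ?_
  rw [← integral_add (int_amp _ _ _) (int_amp _ _ _)]
  refine integral_congr_ae (Eventually.of_forall fun x => ?_)
  simp [add, mul_add]

theorem inn_smul_left (c : ℂ) (F G : Fam N) : inn (F.smul c) G = conj c * inn F G := by
  unfold inn
  rw [Finset.mul_sum]
  refine Finset.sum_congr rfl fun s _ => ?_
  rw [← integral_const_mul]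
  refine integral_congr_ae (Eventually.of_forall fun x => ?_)
  simp [smul, mul_assoc]

theorem inn_smul_right (c : ℂ) (F G : Fam N) : inn F (G.smul c) = c * inn F G := by
  unfold inn
  rw [Finset.mul_sum]
  refine Finset.sum_congr rfl fun s _ => ?_
  rw [← integral_const_mul]
  refine integral_congr_ae (Eventually.of_forall fun x => ?_)
  simp only [smul]
  ring

theorem inn_conj (F G : Fam N) : conj (inn F G) = inn G F := by
  unfold inn
  rw [map_sum]
  refine Finset.sum_congr rfl fun s _ => ?_
  rw [← integral_conj]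
  refine integral_congr_ae (Eventually.of_forall fun x => ?_)
  simp [mul_comm]

theorem kin_add_left (F F' G : Fam N) : kin (F.add F') G = kin F G + kin F' G := by
  unfold kin
  rw [← mul_add]
  simp only [← Finset.sum_add_distrib]
  congr 1
  refine Finset.sum_congr rfl fun s _ => Finset.sum_congr rfl fun i _ =>
    Finset.sum_congr rfl fun k _ => ?_
  rw [← integral_add (int_grad _ _ _ _ _) (int_grad _ _ _ _ _)]
  refine integral_congr_ae (Eventually.of_forall fun x => ?_)
  simp [add, add_mul]

theorem kin_smul_left (c : ℂ) (F G : Fam N) : kin (F.smul c) G = conj c * kin F G := by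
  unfold kin
  rw [mul_left_comm]
  congr 1
  simp only [Finset.mul_sum]
  refine Finset.sum_congr rfl fun s _ => Finset.sum_congr rfl fun i _ =>
    Finset.sum_congr rfl fun k _ => ?_
  rw [← integral_const_mul]
  refine integral_congr_ae (Eventually.of_forall fun x => ?_)
  simp [smul, mul_assoc]

theorem kin_conj (F G : Fam N) : conj (kin F G) = kin G F := by
  unfold kin
  rw [map_mul]
  have : conj (1 / 2 : ℂ) = 1 / 2 := by
    rw [map_div₀, map_one, Complex.conj_ofNat]
  rw [this]
  congr 1
  simp only [map_sum]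
  refine Finset.sum_congr rfl fun s _ => Finset.sum_congr rfl fun i _ =>
    Finset.sum_congr rfl fun k _ => ?_
  rw [← integral_conj]
  refine integral_congr_ae (Eventually.of_forall fun x => ?_)
  simp [mul_comm]

theorem pot_add_left {w : Conf N → ℝ} (hw : Adm w) (F F' G : Fam N) :
    pot w (F.add F') G = pot w F G + pot w F' G := by
  unfold pot
  rw [← Finset.sum_add_distrib]
  refine Finset.sum_congr rfl fun s _ => ?_
  rw [← integral_add (int_pot hw _ _ _) (int_pot hw _ _ _)]
  refine integral_congr_ae (Eventually.of_forall fun x => ?_)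
  simp only [add, map_add]
  ring

theorem pot_smul_left (w : Conf N → ℝ) (c : ℂ) (F G : Fam N) :
    pot w (F.smul c) G = conj c * pot w F G := by
  unfold pot
  rw [Finset.mul_sum]
  refine Finset.sum_congr rfl fun s _ => ?_
  rw [← integral_const_mul]
  refine integral_congr_ae (Eventually.of_forall fun x => ?_)
  simp only [smul, map_mul]
  ring

theorem pot_conj (w : Conf N → ℝ) (F G : Fam N) : conj (pot w F G) = pot w G F := by
  unfold pot
  rw [map_sum]
  refine Finset.sum_congr rfl fun s _ => ?_
  rw [← integral_conj]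
  refine integral_congr_ae (Eventually.of_forall fun x => ?_)
  simp only [map_mul, Complex.conj_ofReal, Complex.conj_conj]
  ring

theorem form_add_left {w : Conf N → ℝ} (hw : Adm w) (F F' G : Fam N) :
    form w (F.add F') G = form w F G + form w F' G := by
  unfold form
  rw [kin_add_left, pot_add_left hw]
  ring

theorem form_smul_left (w : Conf N → ℝ) (c : ℂ) (F G : Fam N) :
    form w (F.smul c) G = conj c * form w F G := by
  unfold form
  rw [kin_smul_left, pot_smul_left]
  ring

theorem form_conj (w : Conf N → ℝ) (F G : Fam N) : conj (form w F G) = form w G F := by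
  unfold form
  rw [map_add, kin_conj, pot_conj]

theorem form_add_right {w : Conf N → ℝ} (hw : Adm w) (F G G' : Fam N) :
    form w F (G.add G') = form w F G + form w F G' := by
  rw [← form_conj w _ F, form_add_left hw, map_add, form_conj, form_conj]

theorem form_smul_right (w : Conf N → ℝ) (c : ℂ) (F G : Fam N) :
    form w F (G.smul c) = c * form w F G := by
  rw [← form_conj w _ F, form_smul_left, map_mul, form_conj, Complex.conj_conj]

theorem inn_self (F : Fam N) : inn F F = (F.nsq : ℂ) := by
  unfold inn nsq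
  push_cast
  refine Finset.sum_congr rfl fun s _ => ?_
  rw [← integral_complex_ofReal]
  refine integral_congr_ae (Eventually.of_forall fun x => ?_)
  simp only [Complex.conj_mul']
  push_cast
  rfl

theorem form_self (w : Conf N → ℝ) (F : Fam N) : form w F F = (F.en w : ℂ) := by
  unfold form kin pot en
  push_cast
  congr 1
  · congr 1
    refine Finset.sum_congr rfl fun s _ => Finset.sum_congr rfl fun i _ =>
      Finset.sum_congr rfl fun k _ => ?_
    rw [← integral_complex_ofReal]
    refine integral_congr_ae (Eventually.of_forall fun x => ?_)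
    simp only [Complex.conj_mul']
    push_cast
    rfl
  · refine Finset.sum_congr rfl fun s _ => ?_
    rw [← integral_complex_ofReal]
    refine integral_congr_ae (Eventually.of_forall fun x => ?_)
    simp only [Complex.conj_mul']
    push_cast
    rfl

/-- expansion of the squared norm -/
theorem nsq_add_smul (F G : Fam N) (t : ℂ) :
    (F.add (G.smul t)).nsq = F.nsq + 2 * (t * inn F G).re + ‖t‖ ^ 2 * G.nsq := by
  have h : ((F.add (G.smul t)).nsq : ℂ) =
      (F.nsq : ℂ) + (t * inn F G + conj (t * inn F G)) + ((‖t‖ ^ 2 * G.nsq : ℝ) : ℂ) := by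
    rw [← inn_self, inn_add_left, inn_add_right, inn_add_right, inn_smul_left, inn_smul_left,
      inn_smul_right, inn_smul_right, inn_self, inn_self, map_mul, inn_conj]
    push_cast
    rw [← Complex.conj_mul']
    ring
  rw [Complex.add_conj] at h
  exact_mod_cast h

/-- expansion of the energy -/
theorem en_add_smul {w : Conf N → ℝ} (hw : Adm w) (F G : Fam N) (t : ℂ) :
    (F.add (G.smul t)).en w = F.en w + 2 * (t * form w F G).re + ‖t‖ ^ 2 * G.en w := by
  have h : ((F.add (G.smul t)).en w : ℂ) =
      (F.en w : ℂ) + (t * form w F G + conj (t * form w F G)) + ((‖t‖ ^ 2 * G.en w : ℝ) : ℂ) := by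
    rw [← form_self, form_add_left hw, form_add_right hw, form_add_right hw, form_smul_left,
      form_smul_left, form_smul_right, form_smul_right, form_self, form_self, map_mul, form_conj]
    push_cast
    rw [← Complex.conj_mul']
    ring
  rw [Complex.add_conj] at h
  exact_mod_cast h

theorem nsq_smul (F : Fam N) (t : ℂ) : (F.smul t).nsq = ‖t‖ ^ 2 * F.nsq := by
  have h : ((F.smul t).nsq : ℂ) = ((‖t‖ ^ 2 * F.nsq : ℝ) : ℂ) := by
    rw [← inn_self, inn_smul_left, inn_smul_right, inn_self]
    push_cast
    rw [← Complex.conj_mul']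
    ring
  exact_mod_cast h

theorem en_smul (w : Conf N → ℝ) (F : Fam N) (t : ℂ) : (F.smul t).en w = ‖t‖ ^ 2 * F.en w := by
  have h : ((F.smul t).en w : ℂ) = ((‖t‖ ^ 2 * F.en w : ℝ) : ℂ) := by
    rw [← form_self, form_smul_left, form_smul_right, form_self]
    push_cast
    rw [← Complex.conj_mul']
    ring
  exact_mod_cast h

theorem nsq_nonneg (F : Fam N) : 0 ≤ F.nsq :=
  Finset.sum_nonneg fun _ _ => integral_nonneg fun _ => by positivity

/-- a family with zero norm has zero energy. -/
theorem en_eq_zero_of_nsq {w : Conf N → ℝ} {F : Fam N} (h : F.nsq = 0) : F.en w = 0 := by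
  have h1 : ∀ s, ∫ x, ‖F.amp s x‖ ^ 2 = 0 := by
    intro s
    exact (Finset.sum_eq_zero_iff_of_nonneg
      (fun s _ => integral_nonneg fun x => by positivity)).1 h s (Finset.mem_univ s)
  have h2 : ∀ s, F.amp s =ᵐ[volume] fun _ => 0 := by
    intro s
    have := (integral_eq_zero_iff_of_nonneg (fun x => by positivity)
      ((F.amp_mem s).integrable_norm_pow (by norm_num))).1 (h1 s)
    filter_upwards [this] with x hx
    simpa using hx
  have h3 : ∀ s i k, F.grad s i k =ᵐ[volume] fun _ => 0 := by
    intro s i k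
    refine IsWD.unique ((F.wd s i k).congr (h2 s) (EventuallyEq.refl _ _)) isWD_zero
      ((F.grad_mem s i k).locallyIntegrable (by norm_num)) ?_
    exact (MemLp.zero (p := 2)).locallyIntegrable (by norm_num)
  have e1 : ∀ s i k, ∫ x, ‖F.grad s i k x‖ ^ 2 = 0 := by
    intro s i k
    rw [integral_congr_ae ((h3 s i k).mono fun x hx => by
      show ‖F.grad s i k x‖ ^ 2 = 0; rw [hx]; simp)]
    simp
  have e2 : ∀ s, ∫ x, w x * ‖F.amp s x‖ ^ 2 = 0 := by
    intro s
    rw [integral_congr_ae ((h2 s).mono fun x hx => by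
      show w x * ‖F.amp s x‖ ^ 2 = 0; rw [hx]; simp)]
    simp
  unfold en
  simp [e1, e2]

end Fam

end

end Vale.Agent.P363.H943
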