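import Vale.Agent.P363.H943.EL
import Vale.Agent.P363.R801.H2
import Vale.Agent.P363.H700.Form1

/-! Euler-Lagrange equation for the Coulomb potential `Top.pot lam` and for `sumPotential v`. -/

namespace Vale.Agent.P363.H943

open MeasureTheory Filter Topology
open Vale.Agent.P363.Stmt
open Vale.Agent.P363.H382
open Vale.Agent.P363.R.Sob
open Vale.Agent.P363.R.Top
open scoped ContDiff ENNReal ComplexConjugate

noncomputable section

variable {N : ℕ}

/-- twice the repulsion is the full double sum (the diagonal vanishes). -/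
theorem two_rep (x : Conf N) : 2 * rep x = ∑ i, ∑ k, 1 / ‖x i - x k‖ := by
  classical
  have h1 : ∀ i : Fin N, ∑ k, 1 / ‖x i - x k‖ =
      ∑ k ∈ Finset.Ioi i, 1 / ‖x i - x k‖ + ∑ k ∈ Finset.Iio i, 1 / ‖x i - x k‖ := by
    intro i
    have e : (Finset.univ : Finset (Fin N)) = insert i (Finset.Ioi i ∪ Finset.Iio i) := by
      ext k
      simp only [Finset.mem_univ, Finset.mem_insert, Finset.mem_union, Finset.mem_Ioi,
        Finset.mem_Iio, true_iff]
      rcases lt_trichotomy k i with h | h | h
      · exact Or.inr (Or.inr h)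
      · exact Or.inl h
      · exact Or.inr (Or.inl h)
    rw [e, Finset.sum_insert, Finset.sum_union]
    · simp
    · rw [Finset.disjoint_left]
      intro k hk hk'
      exact lt_asymm (Finset.mem_Ioi.1 hk) (Finset.mem_Iio.1 hk')
    · simp
  have h2 : ∑ i : Fin N, ∑ k ∈ Finset.Iio i, 1 / ‖x i - x k‖ =
      ∑ i : Fin N, ∑ k ∈ Finset.Ioi i, 1 / ‖x i - x k‖ := by
    rw [Finset.sum_sigma', Finset.sum_sigma']
    refine Finset.sum_nbij' (fun p => ⟨p.2, p.1⟩) (fun p => ⟨p.2, p.1⟩) ?_ ?_ ?_ ?_ ?_
    · intro p hp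
      simpa using hp
    · intro p hp
      simpa using hp
    · intro p _; rfl
    · intro p _; rfl
    · intro p _
      rw [norm_sub_rev]
  simp only [h1, Finset.sum_add_distrib, h2]
  unfold rep
  ring

theorem rep_comp (σ : Equiv.Perm (Fin N)) (x : Conf N) : rep (x ∘ σ : Conf N) = rep x := by
  have h : 2 * rep (x ∘ σ : Conf N) = 2 * rep x := by
    rw [two_rep, two_rep, ← Equiv.sum_comp σ fun i => ∑ k, 1 / ‖x i - x k‖]
    refine Finset.sum_congr rfl fun i _ => ?_
    rw [← Equiv.sum_comp σ fun k => 1 / ‖x (σ i) - x k‖]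
    rfl
  linarith

theorem pot_comp (lam : ℝ) (σ : Equiv.Perm (Fin N)) (x : Conf N) :
    pot lam (x ∘ σ : Conf N) = pot lam x := by
  unfold pot
  rw [rep_comp, ← Equiv.sum_comp σ fun i => -(1 / ‖x i‖)]
  rfl

theorem sumPotential_comp (v : R3 → ℝ) (σ : Equiv.Perm (Fin N)) (x : Conf N) :
    sumPotential v (x ∘ σ : Conf N) = sumPotential v x := by
  unfold sumPotential
  rw [← Equiv.sum_comp σ fun i => v (x i)]
  rfl

theorem measurable_rep : Measurable (rep : Conf N → ℝ) := by
  unfold rep
  refine Finset.measurable_fun_sum _ fun i _ => Finset.measurable_fun_sum _ fun k _ => ?_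
  exact ((by fun_prop : Continuous fun x : Conf N => ‖x i - x k‖).measurable).const_div 1

theorem measurable_pot (lam : ℝ) : Measurable (pot lam : Conf N → ℝ) := by
  unfold pot
  refine Measurable.add (Finset.measurable_fun_sum _ fun i _ => ?_) (measurable_rep.const_mul lam)
  exact (((by fun_prop : Continuous fun x : Conf N => ‖x i‖).measurable).const_div 1).neg

theorem adm_rep : Adm (rep : Conf N → ℝ) where
  meas := measurable_rep.aestronglyMeasurable
  int f g hf hg h := by
    have : (fun x : Conf N => rep x * ‖f x‖ ^ 2) =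
        fun x => ∑ i : Fin N, ∑ k ∈ Finset.Ioi i, ‖f x‖ ^ 2 / ‖x i - x k‖ := by
      funext x
      unfold rep
      rw [Finset.sum_mul]
      refine Finset.sum_congr rfl fun i _ => ?_
      rw [Finset.sum_mul]
      exact Finset.sum_congr rfl fun k _ => by ring
    rw [this]
    exact integrable_finsetSum _ fun i _ => integrable_finsetSum _ fun k hk =>
      R801.int_two hf hg h (ne_of_lt (Finset.mem_Ioi.1 hk))

theorem adm_pot (lam : ℝ) : Adm (pot lam : Conf N → ℝ) where
  meas := (measurable_pot lam).aestronglyMeasurable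
  int f g hf hg h := by
    have : (fun x : Conf N => pot lam x * ‖f x‖ ^ 2) =
        fun x => (∑ i : Fin N, -(‖f x‖ ^ 2 / ‖x i‖)) + lam * (rep x * ‖f x‖ ^ 2) := by
      funext x
      unfold pot
      rw [add_mul, Finset.sum_mul]
      congr 1
      · exact Finset.sum_congr rfl fun k _ => by ring
      · ring
    rw [this]
    exact (integrable_finsetSum _ fun i _ => (R801.int_one hf hg h i).neg).add
      ((adm_rep.int f g hf hg h).const_mul lam)

theorem adm_sumPotential {n : ℕ} {v : R3 → ℝ} (hv : MemV v) :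
    Adm (sumPotential v : Conf (n + 1) → ℝ) where
  meas := by
    unfold sumPotential
    refine Finset.aestronglyMeasurable_fun_sum _ fun i _ => ?_
    exact H700.aesm_comp_proj (H518.insE i) (H518.insE_mp i) (p := fun x => x i)
      (fun q => by simp) (H700.memV_aesm hv)
  int f g hf hg h := by
    have : (fun x : Conf (n + 1) => sumPotential v x * ‖f x‖ ^ 2) =
        fun x => ∑ i : Fin (n + 1), v (x i) * ‖f x‖ ^ 2 := by
      funext x
      unfold sumPotential
      rw [Finset.sum_mul]
    rw [this]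
    exact integrable_finsetSum _ fun i _ =>
      (H700.form_bound_conf i hf (fun k => hg i k) (fun k => h i k) hv one_pos).1

/-- the product of the Coulomb potential with an `H¹` function is in `L²` (Hardy). -/
theorem memLp_inv_one {f : Conf N → ℂ} {g : Fin N → Fin 3 → Conf N → ℂ} (hf : MemLp f 2 volume)
    (hg : ∀ i k, MemLp (g i k) 2 volume) (h : ∀ i k, IsWD volume (dir i k) f (g i k))
    (i : Fin N) : MemLp (fun x => ((1 / ‖x i‖ : ℝ) : ℂ) * f x) 2 volume := by
  have h1 := (hardy (μ := (volume : Measure (Conf N))) (R801.prj i) 0 (fun k => dir i k)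
    (fun k => R801.prj_dir i k) hf (fun k => hg i k) (fun k => h i k)).1
  have hm : AEStronglyMeasurable (fun x => ((1 / ‖x i‖ : ℝ) : ℂ) * f x)
      (volume : Measure (Conf N)) := by
    refine AEStronglyMeasurable.mul ?_ hf.1
    exact (Complex.measurable_ofReal.comp
      (((by fun_prop : Continuous fun x : Conf N => ‖x i‖).measurable).const_div 1)).aestronglyMeasurable
  refine (memLp_two_iff_integrable_sq_norm hm).2 (h1.congr (Eventually.of_forall fun x => ?_))
  simp only [R801.prj, ContinuousLinearMap.proj_apply, sub_zero, norm_mul, Complex.norm_real,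
    mul_pow, Real.norm_eq_abs, sq_abs]
  ring

theorem memLp_inv_two {f : Conf N → ℂ} {g : Fin N → Fin 3 → Conf N → ℂ} (hf : MemLp f 2 volume)
    (hg : ∀ i k, MemLp (g i k) 2 volume) (h : ∀ i k, IsWD volume (dir i k) f (g i k))
    {i j : Fin N} (hij : i ≠ j) :
    MemLp (fun x => ((1 / ‖x i - x j‖ : ℝ) : ℂ) * f x) 2 volume := by
  have h1 := (hardy (μ := (volume : Measure (Conf N))) (R801.prj i - R801.prj j) 0
    (fun k => dir i k) (fun k => R801.prj_sub_dir hij k) hf (fun k => hg i k)
    (fun k => h i k)).1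
  have hm : AEStronglyMeasurable (fun x => ((1 / ‖x i - x j‖ : ℝ) : ℂ) * f x)
      (volume : Measure (Conf N)) := by
    refine AEStronglyMeasurable.mul ?_ hf.1
    exact (Complex.measurable_ofReal.comp
      (((by fun_prop : Continuous fun x : Conf N => ‖x i - x j‖).measurable).const_div
        1)).aestronglyMeasurable
  refine (memLp_two_iff_integrable_sq_norm hm).2 (h1.congr (Eventually.of_forall fun x => ?_))
  simp only [R801.prj, sub_apply, ContinuousLinearMap.proj_apply, sub_zero,
    norm_mul, Complex.norm_real, mul_pow, Real.norm_eq_abs, sq_abs]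
  ring

theorem memLp_rep_mul {f : Conf N → ℂ} {g : Fin N → Fin 3 → Conf N → ℂ} (hf : MemLp f 2 volume)
    (hg : ∀ i k, MemLp (g i k) 2 volume) (h : ∀ i k, IsWD volume (dir i k) f (g i k)) :
    MemLp (fun x => (rep x : ℂ) * f x) 2 volume := by
  have : (fun x : Conf N => (rep x : ℂ) * f x) =
      fun x => ∑ i : Fin N, ∑ k ∈ Finset.Ioi i, ((1 / ‖x i - x k‖ : ℝ) : ℂ) * f x := by
    funext x
    unfold rep
    push_cast
    simp only [Finset.sum_mul]
  rw [this]
  exact memLp_finsetSum _ fun i _ => memLp_finsetSum _ fun k hk =>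
    memLp_inv_two hf hg h (ne_of_lt (Finset.mem_Ioi.1 hk))

theorem memLp_pot_mul (lam : ℝ) {f : Conf N → ℂ} {g : Fin N → Fin 3 → Conf N → ℂ}
    (hf : MemLp f 2 volume)
    (hg : ∀ i k, MemLp (g i k) 2 volume) (h : ∀ i k, IsWD volume (dir i k) f (g i k)) :
    MemLp (fun x => (pot lam x : ℂ) * f x) 2 volume := by
  have : (fun x : Conf N => (pot lam x : ℂ) * f x) =
      fun x => (∑ i : Fin N, -(((1 / ‖x i‖ : ℝ) : ℂ) * f x)) + (lam : ℂ) * ((rep x : ℂ) * f x) := by
    funext x
    unfold pot
    push_cast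
    rw [add_mul, Finset.sum_mul, mul_assoc]
    congr 1
    exact Finset.sum_congr rfl fun k _ => by ring
  rw [this]
  exact (memLp_finsetSum _ fun i _ => (memLp_inv_one hf hg h i).neg).add
    ((memLp_rep_mul hf hg h).const_mul _)

theorem state_memLp_pot (lam : ℝ) (Ψ : ElectronState N) (s : Spn N) :
    MemLp (fun x => (pot lam x : ℂ) * Ψ.amp s x) 2 volume :=
  memLp_pot_mul lam (Ψ.amp_memLp s) (Ψ.grad_memLp s)
    (fun i k => isWeakDeriv_iff.1 (Ψ.grad_weak s i k))

/-! ### Euler-Lagrange equations -/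

/-- Euler-Lagrange equation of a ground state of the (scaled) atom. -/
theorem el_pot {lam : ℝ} {Ψ : ElectronState N} (h : IsGroundState (pot lam) Ψ) (F : Fam N) :
    Fam.form (pot lam) F (fam Ψ) = (energy (pot lam) Ψ : ℂ) * Fam.inn F (fam Ψ) :=
  el (adm_pot lam) (pot_comp lam) h F

/-- Euler-Lagrange equation of a ground state of non-interacting electrons. -/
theorem el_sumPotential {n : ℕ} {v : R3 → ℝ} (hv : MemV v) {Ψ : ElectronState (n + 1)}
    (h : IsGroundState (sumPotential v) Ψ) (F : Fam (n + 1)) :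
    Fam.form (sumPotential v) F (fam Ψ) = (energy (sumPotential v) Ψ : ℂ) * Fam.inn F (fam Ψ) :=
  el (adm_sumPotential hv) (sumPotential_comp v) h F

/-- The Euler-Lagrange equation of an atomic ground state, written out. -/
theorem el_pot' {lam : ℝ} {Ψ : ElectronState N} (h : IsGroundState (pot lam) Ψ)
    (f : Spn N → Conf N → ℂ) (g : Spn N → Fin N → Fin 3 → Conf N → ℂ)
    (hf : ∀ s, MemLp (f s) 2 (volume : Measure (Conf N)))
    (hg : ∀ s i k, MemLp (g s i k) 2 (volume : Measure (Conf N)))
    (hwd : ∀ s i k, IsWD (volume : Measure (Conf N)) (dir i k) (f s) (g s i k)) :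
    (1 / 2) * (∑ s, ∑ i, ∑ k, ∫ x, conj (g s i k x) * Ψ.grad s i k x) +
      ∑ s, ∫ x, (pot lam x : ℂ) * (conj (f s x) * Ψ.amp s x) =
      (energy (pot lam) Ψ : ℂ) * ∑ s, ∫ x, conj (f s x) * Ψ.amp s x :=
  el' (adm_pot lam) (pot_comp lam) h f g hf hg hwd

end

end Vale.Agent.P363.H943
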