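import Vale.Agent.P363.H943.Dyson5
import Vale.Agent.P363.R.B5.h924.Mult

/-! `B5.Spec.rem_bound`, unconditional. -/

namespace Vale.Agent.P363.H943

open MeasureTheory Filter Topology
open Vale.Agent.P363.Stmt
open Vale.Agent.P363.R.Top
open Vale.Agent.P363.B5

/-- `B5.Spec.rem_bound`. -/
theorem rem_bound (κ : ℝ) : ∃ ε > 0, ∃ C : ℝ, 0 ≤ C ∧ ∀ lam, 0 < lam → lam < ε →
    ∀ (Φ : ElectronState 4) (Ψ : ElectronState 5), AtomPair κ lam ε Φ Ψ →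
      AEStronglyMeasurable (rem Φ Ψ) volume ∧
        ∀ᵐ x, 1 ≤ ‖x‖ → ‖rem Φ Ψ x‖ ≤ C / ‖x‖ ^ 2 * Real.sqrt (density Ψ x) :=
  rem_bound_of κ (Vale.Agent.P363.R.B5.mult_final κ)

end Vale.Agent.P363.H943
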