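import Vale.Agent.P363.H943.Pot
import Vale.Agent.P363.H382.Contract

/-! Tensor products `u ⊗ G` of a one-electron function and a family, partial contractions. -/

namespace Vale.Agent.P363.H943

open MeasureTheory Filter Topology
open Vale.Agent.P363.Stmt
open Vale.Agent.P363.H382
open Vale.Agent.P363.H518 (memLp_mul_prod memLp_conj pcoef)
open Vale.Agent.P363.R.Sob
open Vale.Agent.P363.R.Top
open scoped ContDiff ENNReal ComplexConjugate

noncomputable section

set_option linter.unusedSectionVars false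

section prod

variable {E₁ : Type*} [NormedAddCommGroup E₁] [NormedSpace ℝ E₁] [FiniteDimensional ℝ E₁]
  [MeasurableSpace E₁] [BorelSpace E₁]
variable {E₂ : Type*} [NormedAddCommGroup E₂] [NormedSpace ℝ E₂] [FiniteDimensional ℝ E₂]
  [MeasurableSpace E₂] [BorelSpace E₂]
variable {μ : Measure E₁} [μ.IsAddHaarMeasure] {ν : Measure E₂} [ν.IsAddHaarMeasure]

theorem test_slice_fst {φ : E₁ × E₂ → ℝ} (hφ : Test φ) (y : E₂) : Test (fun x => φ (x, y)) := by
  refine ⟨hφ.1.comp (contDiff_id.prodMk contDiff_const), ?_⟩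
  refine HasCompactSupport.of_support_subset_isCompact (hφ.2.isCompact.image continuous_fst) ?_
  intro x hx
  exact ⟨(x, y), subset_tsupport _ hx, rfl⟩

theorem fderiv_slice_fst {φ : E₁ × E₂ → ℝ} (hφ : Test φ) (y : E₂) (x v : E₁) :
    fderiv ℝ (fun x => φ (x, y)) x v = fderiv ℝ φ (x, y) (v, 0) := by
  have h1 : HasFDerivAt φ (fderiv ℝ φ (x, y)) (x, y) := (hφ.differentiable _).hasFDerivAt
  have h2 : HasFDerivAt (fun x : E₁ => (x, y)) (ContinuousLinearMap.inl ℝ E₁ E₂) x :=
    hasFDerivAt_prodMk_left x y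
  have h3 := (h1.comp x h2).fderiv
  simp only [Function.comp_def] at h3
  rw [h3]
  simp

/-- tensor product, derivative in the first factor. -/
theorem isWD_mul_fst {u u' : E₁ → ℂ} {f : E₂ → ℂ} {v : E₁} (hu : MemLp u 2 μ)
    (hu' : MemLp u' 2 μ) (hf : MemLp f 2 ν) (h : IsWD μ v u u') :
    IsWD (μ.prod ν) (v, (0 : E₂)) (fun p => u p.1 * f p.2) (fun p => u' p.1 * f p.2) := by
  intro φ hφ
  have key : ∀ {ψ : E₁ × E₂ → ℝ} {w : E₁ → ℂ}, Test ψ → MemLp w 2 μ →
      ∫ p, ψ p • (w p.1 * f p.2) ∂(μ.prod ν) = ∫ y, f y * ∫ x, ψ (x, y) • w x ∂μ ∂ν := by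
    intro ψ w hψ hw
    have h1 : Integrable (fun p : E₁ × E₂ => ψ p • (w p.1 * f p.2)) (μ.prod ν) :=
      hψ.integrable_smul ((memLp_mul_prod hw hf).locallyIntegrable (by norm_num))
    rw [integral_prod_symm _ h1]
    refine integral_congr_ae (Eventually.of_forall fun y => ?_)
    simp only
    rw [← integral_const_mul]
    refine integral_congr_ae (Eventually.of_forall fun x => ?_)
    simp only [Complex.real_smul]
    ring
  rw [key (hφ.fderiv (v, 0)) hu, key hφ hu', ← integral_neg]
  refine integral_congr_ae (Eventually.of_forall fun y => ?_)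
  simp only
  have := h _ (test_slice_fst hφ y)
  simp only [fderiv_slice_fst hφ y] at this
  rw [this]
  ring

/-- tensor product, derivative in the second factor. -/
theorem isWD_mul_snd {u : E₁ → ℂ} {f f' : E₂ → ℂ} {v : E₂} (hu : MemLp u 2 μ)
    (hf : MemLp f 2 ν) (hf' : MemLp f' 2 ν) (h : IsWD ν v f f') :
    IsWD (μ.prod ν) ((0 : E₁), v) (fun p => u p.1 * f p.2) (fun p => u p.1 * f' p.2) := by
  have h1 := isWD_swap (isWD_mul_fst (μ := ν) (ν := μ) hf hf' hu h)
  refine h1.congr (Eventually.of_forall fun p => ?_) (Eventually.of_forall fun p => ?_)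
  · simp [mul_comm]
  · simp [mul_comm]

end prod

/-! ### the families -/

variable {n : ℕ}

/-- the last `n` electrons -/
def tl {α : Type*} (z : Fin (n + 1) → α) : Fin n → α := fun i => z i.succ

@[simp] theorem tl_cons {α : Type*} (a : α) (z : Fin n → α) :
    tl (Fin.cons a z : Fin (n + 1) → α) = z := by
  funext i
  simp [tl]

theorem memLp_tens {u : R3 → ℂ} {g : Conf n → ℂ} (hu : MemLp u 2 volume) (hg : MemLp g 2 volume) :
    MemLp (fun z : Conf (n + 1) => u (z 0) * g (tl z)) 2 volume := by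
  rw [← memLp_unc_iff]
  have h := memLp_mul_prod (μ := (volume : Measure R3)) (ν := (volume : Measure (Conf n))) hu hg
  refine (memLp_congr_ae (Eventually.of_forall fun p => ?_)).1 h
  simp [unc]

theorem isWD_tens_zero {u u' : R3 → ℂ} {g : Conf n → ℂ} {k : Fin 3} (hu : MemLp u 2 volume)
    (hu' : MemLp u' 2 volume) (hg : MemLp g 2 volume) (h : IsWD volume (e3 k) u u') :
    IsWD volume (dir 0 k) (fun z : Conf (n + 1) => u (z 0) * g (tl z))
      (fun z => u' (z 0) * g (tl z)) := by
  rw [← consE_dir_zero, ← isWD_comp_equiv_iff consE (consE_mp (n := n))]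
  have h1 : IsWD (volume : Measure (R3 × Conf n)) (e3 k, 0) (fun p => u p.1 * g p.2)
      (fun p => u' p.1 * g p.2) :=
    isWD_mul_fst (μ := (volume : Measure R3)) (ν := (volume : Measure (Conf n))) hu hu' hg h
  simpa only [consE_apply, Fin.cons_zero, tl_cons] using h1

theorem isWD_tens_succ {u : R3 → ℂ} {g g' : Conf n → ℂ} {i : Fin n} {k : Fin 3}
    (hu : MemLp u 2 volume) (hg : MemLp g 2 volume) (hg' : MemLp g' 2 volume)
    (h : IsWD volume (dir i k) g g') :
    IsWD volume (dir i.succ k) (fun z : Conf (n + 1) => u (z 0) * g (tl z))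
      (fun z => u (z 0) * g' (tl z)) := by
  rw [← consE_dir_succ, ← isWD_comp_equiv_iff consE (consE_mp (n := n))]
  have h1 : IsWD (volume : Measure (R3 × Conf n)) (0, dir i k) (fun p => u p.1 * g p.2)
      (fun p => u p.1 * g' p.2) :=
    isWD_mul_snd (μ := (volume : Measure R3)) (ν := (volume : Measure (Conf n))) hu hg hg' h
  simpa only [consE_apply, Fin.cons_zero, tl_cons] using h1

/-- the pairing of `u ⊗ g` with `f`, first form. -/
theorem integral_tens {u : R3 → ℂ} {g : Conf n → ℂ} {f : Conf (n + 1) → ℂ}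
    (hu : MemLp u 2 volume) (hg : MemLp g 2 volume) (hf : MemLp f 2 volume) :
    ∫ z, conj (u (z 0) * g (tl z)) * f z = ∫ x, conj (u x) * contr g f x := by
  have hi : Integrable (fun z : Conf (n + 1) => conj (u (z 0) * g (tl z)) * f z) :=
    (memLp_tens hu hg).star.integrable_mul hf
  rw [← integral_unc]
  have e : (volume : Measure (R3 × Conf n)) = (volume : Measure R3).prod volume := rfl
  rw [e, integral_prod _ (by rw [← e]; exact integrable_unc_iff.2 hi)]
  refine integral_congr_ae (Eventually.of_forall fun x => ?_)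
  simp only [contr, unc, Fin.cons_zero, tl_cons]
  rw [← integral_const_mul]
  refine integral_congr_ae (Eventually.of_forall fun y => ?_)
  simp only [map_mul]
  ring

/-- the pairing of `u ⊗ g` with `f`, second form. -/
theorem integral_tens' {u : R3 → ℂ} {g : Conf n → ℂ} {f : Conf (n + 1) → ℂ}
    (hu : MemLp u 2 volume) (hg : MemLp g 2 volume) (hf : MemLp f 2 volume) :
    ∫ z, conj (u (z 0) * g (tl z)) * f z = ∫ y, conj (g y) * contrL u f y := by
  have hi : Integrable (fun z : Conf (n + 1) => conj (u (z 0) * g (tl z)) * f z) :=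
    (memLp_tens hu hg).star.integrable_mul hf
  rw [← integral_unc]
  have e : (volume : Measure (R3 × Conf n)) = (volume : Measure R3).prod volume := rfl
  rw [e, integral_prod_symm _ (by rw [← e]; exact integrable_unc_iff.2 hi)]
  refine integral_congr_ae (Eventually.of_forall fun y => ?_)
  simp only [contrL, unc, Fin.cons_zero, tl_cons]
  rw [← integral_const_mul]
  refine integral_congr_ae (Eventually.of_forall fun x => ?_)
  simp only [map_mul]
  ring

namespace Fam

/-- the family `(u, σ) ⊗ G`. -/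
def tens (σ : Fin 2) {u : R3 → ℂ} {u' : Fin 3 → R3 → ℂ} (hu : MemLp u 2 volume)
    (hu' : ∀ k, MemLp (u' k) 2 volume) (hw : ∀ k, IsWD volume (e3 k) u (u' k)) (G : Fam n) :
    Fam (n + 1) where
  amp s z := if s 0 = σ then u (z 0) * G.amp (tl s) (tl z) else 0
  grad s i k z := if s 0 = σ then (Fin.cases (motive := fun _ => ℂ)
    (u' k (z 0) * G.amp (tl s) (tl z)) (fun j => u (z 0) * G.grad (tl s) j k (tl z)) i) else 0
  amp_mem s := by
    by_cases h : s 0 = σ
    · simp only [h, if_true]
      exact memLp_tens hu (G.amp_mem _)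
    · simp only [h, if_false]
      exact MemLp.zero
  grad_mem s i k := by
    by_cases h : s 0 = σ
    · simp only [h, if_true]
      refine Fin.cases ?_ (fun j => ?_) i
      · simp only [Fin.cases_zero]
        exact memLp_tens (hu' k) (G.amp_mem _)
      · simp only [Fin.cases_succ]
        exact memLp_tens hu (G.grad_mem _ _ _)
    · simp only [h, if_false]
      exact MemLp.zero
  wd s i k := by
    by_cases h : s 0 = σ
    · simp only [h, if_true]
      refine Fin.cases ?_ (fun j => ?_) i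
      · simp only [Fin.cases_zero]
        exact isWD_tens_zero hu (hu' k) (G.amp_mem _) (hw k)
      · simp only [Fin.cases_succ]
        exact isWD_tens_succ hu (G.amp_mem _) (G.grad_mem _ _ _) (G.wd _ _ _)
    · simp only [h, if_false]
      exact isWD_zero

/-- the partial contraction of `H` with `(u, σ)` in the first electron. -/
def cont (σ : Fin 2) {u : R3 → ℂ} (hu : MemLp u 2 volume) (H : Fam (n + 1)) : Fam n where
  amp s y := contrL u (H.amp (Fin.cons σ s)) y
  grad s i k y := contrL u (H.grad (Fin.cons σ s) i.succ k) y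
  amp_mem _ := memLp_contrL hu (H.amp_mem _)
  grad_mem _ _ _ := memLp_contrL hu (H.grad_mem _ _ _)
  wd _ _ _ := isWD_contrL hu (H.amp_mem _) (H.grad_mem _ _ _) (H.wd _ _ _)

/-- the contraction of `H` with `G` in the last `n` electrons. -/
def dys (G : Fam n) (H : Fam (n + 1)) (σ : Fin 2) (x : R3) : ℂ :=
  ∑ s, contr (G.amp s) (H.amp (Fin.cons σ s)) x

/-- its gradient. -/
def dysG (G : Fam n) (H : Fam (n + 1)) (σ : Fin 2) (k : Fin 3) (x : R3) : ℂ :=
  ∑ s, contr (G.amp s) (H.grad (Fin.cons σ s) 0 k) x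

theorem memLp_dys (G : Fam n) (H : Fam (n + 1)) (σ : Fin 2) : MemLp (dys G H σ) 2 volume :=
  memLp_finsetSum _ fun s _ => memLp_contr (G.amp_mem s) (H.amp_mem _)

theorem memLp_dysG (G : Fam n) (H : Fam (n + 1)) (σ : Fin 2) (k : Fin 3) :
    MemLp (dysG G H σ k) 2 volume :=
  memLp_finsetSum _ fun s _ => memLp_contr (G.amp_mem s) (H.grad_mem _ _ _)

theorem isWD_fsum {E F ι : Type*} [NormedAddCommGroup E] [NormedSpace ℝ E] [FiniteDimensional ℝ E]
    [MeasurableSpace E] [BorelSpace E] [NormedAddCommGroup F] [NormedSpace ℝ F] {μ : Measure E}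
    [μ.IsAddHaarMeasure] {v : E} (S : Finset ι) {f g : ι → E → F}
    (hf : ∀ j, LocallyIntegrable (f j) μ) (hg : ∀ j, LocallyIntegrable (g j) μ)
    (h : ∀ j, IsWD μ v (f j) (g j)) :
    IsWD μ v (fun x => ∑ j ∈ S, f j x) (fun x => ∑ j ∈ S, g j x) := by
  intro φ hφ
  simp only [Finset.smul_sum]
  rw [integral_finsetSum _ fun j _ => (hφ.fderiv v).integrable_smul (hf j),
    integral_finsetSum _ fun j _ => hφ.integrable_smul (hg j), ← Finset.sum_neg_distrib]
  exact Finset.sum_congr rfl fun j _ => h j φ hφ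

theorem isWD_dys (G : Fam n) (H : Fam (n + 1)) (σ : Fin 2) (k : Fin 3) :
    IsWD volume (e3 k) (dys G H σ) (dysG G H σ k) :=
  isWD_fsum _ (fun s => (memLp_contr (G.amp_mem s) (H.amp_mem _)).locallyIntegrable (by norm_num))
    (fun s => (memLp_contr (G.amp_mem s) (H.grad_mem _ _ _)).locallyIntegrable (by norm_num))
    (fun s => isWD_contr (G.amp_mem s) (H.amp_mem _) (H.grad_mem _ _ _) (H.wd _ _ _))

/-- sum over the spins in a tensor family. -/
theorem sum_spin_ite (σ : Fin 2) (f : Spn (n + 1) → ℂ) :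
    ∑ s : Spn (n + 1), (if s 0 = σ then f s else 0) = ∑ s : Spn n, f (Fin.cons σ s) := by
  rw [R801.sum_spin]
  rw [Finset.sum_eq_single σ]
  · simp
  · intro a _ ha
    simp [ha]
  · simp

section pair

variable (σ : Fin 2) {u : R3 → ℂ} {u' : Fin 3 → R3 → ℂ} (hu : MemLp u 2 volume)
    (hu' : ∀ k, MemLp (u' k) 2 volume) (hw : ∀ k, IsWD volume (e3 k) u (u' k)) (G : Fam n)
    (H : Fam (n + 1))

theorem inn_tens : inn (tens σ hu hu' hw G) H = ∫ x, conj (u x) * dys G H σ x := by
  have h1 : inn (tens σ hu hu' hw G) H = ∑ s : Spn (n + 1), (if s 0 = σ then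
      ∫ z, conj (u (z 0) * G.amp (tl s) (tl z)) * H.amp s z else 0) := by
    unfold inn
    refine Finset.sum_congr rfl fun s _ => ?_
    by_cases h : s 0 = σ
    · simp [tens, h]
    · simp [tens, h]
  rw [h1, sum_spin_ite]
  simp only [tl_cons, dys, Finset.mul_sum]
  rw [integral_finsetSum]
  · exact Finset.sum_congr rfl fun s _ => integral_tens hu (G.amp_mem s) (H.amp_mem _)
  · exact fun s _ => hu.star.integrable_mul (memLp_contr (G.amp_mem s) (H.amp_mem _))

theorem inn_tens' : inn (tens σ hu hu' hw G) H = inn G (cont σ hu H) := by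
  have h1 : inn (tens σ hu hu' hw G) H = ∑ s : Spn (n + 1), (if s 0 = σ then
      ∫ z, conj (u (z 0) * G.amp (tl s) (tl z)) * H.amp s z else 0) := by
    unfold inn
    refine Finset.sum_congr rfl fun s _ => ?_
    by_cases h : s 0 = σ
    · simp [tens, h]
    · simp [tens, h]
  rw [h1, sum_spin_ite]
  simp only [tl_cons]
  exact Finset.sum_congr rfl fun s _ => integral_tens' hu (G.amp_mem s) (H.amp_mem _)

theorem kin_tens : kin (tens σ hu hu' hw G) H =
    (1 / 2) * (∑ k, ∫ x, conj (u' k x) * dysG G H σ k x) + kin G (cont σ hu H) := by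
  have h1 : ∑ s, ∑ i, ∑ k, ∫ z, conj ((tens σ hu hu' hw G).grad s i k z) * H.grad s i k z =
      ∑ s : Spn (n + 1), (if s 0 = σ then
        (∑ k, ∫ z, conj (u' k (z 0) * G.amp (tl s) (tl z)) * H.grad s 0 k z) +
        ∑ i : Fin n, ∑ k, ∫ z, conj (u (z 0) * G.grad (tl s) i k (tl z)) * H.grad s i.succ k z
        else 0) := by
    refine Finset.sum_congr rfl fun s _ => ?_
    by_cases h : s 0 = σ
    · simp only [tens, h, if_true]
      rw [Fin.sum_univ_succ]
      rfl
    · simp [tens, h]
  unfold kin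
  rw [h1, sum_spin_ite, ← mul_add]
  congr 1
  rw [Finset.sum_add_distrib]
  congr 1
  · rw [Finset.sum_comm]
    refine Finset.sum_congr rfl fun k _ => ?_
    simp only [tl_cons, dysG, Finset.mul_sum]
    rw [integral_finsetSum]
    · exact Finset.sum_congr rfl fun s _ => integral_tens (hu' k) (G.amp_mem s) (H.grad_mem _ _ _)
    · exact fun s _ => (hu' k).star.integrable_mul (memLp_contr (G.amp_mem s) (H.grad_mem _ _ _))
  · refine Finset.sum_congr rfl fun s _ => Finset.sum_congr rfl fun i _ =>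
      Finset.sum_congr rfl fun k _ => ?_
    simp only [tl_cons]
    exact integral_tens' hu (G.grad_mem s i k) (H.grad_mem _ _ _)

end pair

end Fam

end

end Vale.Agent.P363.H943
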